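import Vale.Agent.Lib.P254U.LM.Defs
import Vale.Agent.Lib.P254U.FS.RatSum

/-!
P254U/LM/AMGM: a sufficient condition for `L_K < L_Δ`.

`det_mul_det_le`: for positive semidefinite `S` and positive definite `B` (`B = Cᴴ C`):
`det S det B = det (C S Cᴴ) ≤ (tr (C S Cᴴ)/n)^n = (tr (B S)/n)^n` (AM-GM for the eigenvalues).
`B = (n+1)(n+2) (1 + 𝟙𝟙ᵀ)`, `det B = (n+1)^(n+1) (n+2)^n`, so with `t = n! |K|`
`Rat K = det (covM K) det B / t² ≤ (tr (B covM K)/n)^n / t²`, and
`tr (B covM K) = (n+1)(n+2) E_K[Σ (x_i - c_i)² + (Σ x_i - Σ c_i)²]`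
`≤ (n+1)(n+2) E_K[QQ - 1/(n+1)]` (replace the centroid by `ctr n`: the second moment about any point
is larger).  `∫_Δ ((n+1) QQ - 1) = n/(n+2) |Δ|` (`simp_one`, `simp_two`, `simp_vol`),
`∫_(Δ \ K) ((n+1) QQ - 1) ≥ |Δ \ K| = |Δ| (1 - t)`.  So
`tr (B covM K)/n ≤ (1 - (1 + 2/n)(1 - t))/t` and `Rat K ≤ (1 - (1+2/n)(1-t))^n / t^(n+2) < 1` because
`1 - (1+2/n)(1-t) < t^((n+2)/n)` for `0 < t < 1` (strict Bernoulli), equivalently
`(1 - (n+2)/n (1-t))^n < t^(n+2)`.
-/

open MeasureTheory Set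

namespace Vale.Agent.P254U

variable {n : ℕ}

private theorem amgm_prod (hn : 1 ≤ n) (z : Fin n → ℝ) (hz : ∀ i, 0 ≤ z i) :
    ∏ i, z i ≤ ((∑ i, z i) / n) ^ n := by
  have hn' : (0 : ℝ) < n := by exact_mod_cast hn
  have hw : (∑ _i : Fin n, (1 : ℝ)) = n := by simp
  have h := Real.geom_mean_le_arith_mean Finset.univ (fun _ : Fin n => (1 : ℝ)) z
    (fun _ _ => zero_le_one) (by rw [hw]; exact hn') (fun i _ => hz i)
  simp only [Real.rpow_one, one_mul, hw] at h
  have hP : 0 ≤ ∏ i, z i := Finset.prod_nonneg fun i _ => hz i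
  have h2 := pow_le_pow_left₀ (Real.rpow_nonneg hP _) h n
  rwa [← Real.rpow_natCast, ← Real.rpow_mul hP, inv_mul_cancel₀ hn'.ne', Real.rpow_one] at h2

open scoped MatrixOrder in
private theorem amgm_fact {B : Matrix (Fin n) (Fin n) ℝ} (hB : B.PosSemidef) :
    ∃ C : Matrix (Fin n) (Fin n) ℝ, B = C.conjTranspose * C := by
  obtain ⟨C, hC⟩ := CStarAlgebra.nonneg_iff_eq_star_mul_self.mp hB.nonneg
  exact ⟨C, hC⟩

theorem det_mul_det_le (hn : 1 ≤ n) {S B : Matrix (Fin n) (Fin n) ℝ} (hS : S.PosSemidef)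
    (hB : B.PosDef) : S.det * B.det ≤ ((B * S).trace / n) ^ n := by
  obtain ⟨C, rfl⟩ := amgm_fact hB.posSemidef
  have hM := hS.mul_mul_conjTranspose_same C
  have h1 : (C * S * C.conjTranspose).det = S.det * (C.conjTranspose * C).det := by
    rw [Matrix.det_mul, Matrix.det_mul, Matrix.det_mul]
    ring
  have h2 : (C * S * C.conjTranspose).trace = (C.conjTranspose * C * S).trace := by
    rw [Matrix.trace_mul_cycle]
  rw [← h1, ← h2, hM.1.det_eq_prod_eigenvalues, hM.1.trace_eq_sum_eigenvalues]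
  exact amgm_prod hn _ fun i => hM.eigenvalues_nonneg i

theorem bernoulli_strict (hn : 1 ≤ n) {t : ℝ} (h0 : 0 < t) (h1 : t < 1)
    (h2 : 0 ≤ 1 - ((n : ℝ) + 2) / n * (1 - t)) :
    (1 - ((n : ℝ) + 2) / n * (1 - t)) ^ n < t ^ (n + 2) := by
  have hn' : (0 : ℝ) < n := by exact_mod_cast hn
  have hp : 1 < ((n : ℝ) + 2) / n := by
    rw [one_lt_div hn']
    linarith
  have h := one_add_mul_self_lt_rpow_one_add (s := t - 1) (by linarith) (by linarith) hp
  have e1 : 1 + ((n : ℝ) + 2) / n * (t - 1) = 1 - ((n : ℝ) + 2) / n * (1 - t) := by ring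
  have e2 : 1 + (t - 1) = t := by ring
  rw [e1, e2] at h
  have h3 := pow_lt_pow_left₀ h h2 (by omega : n ≠ 0)
  have h4 : (t ^ (((n : ℝ) + 2) / n)) ^ n = t ^ (n + 2) := by
    rw [← Real.rpow_natCast, ← Real.rpow_mul h0.le, div_mul_cancel₀ _ hn'.ne',
      ← Real.rpow_natCast]
    push_cast
    rfl
  rwa [h4] at h3

/-- `1 + 𝟙𝟙ᵀ` -/
private def amgmB (n : ℕ) : Matrix (Fin n) (Fin n) ℝ :=
  1 + Matrix.vecMulVec (fun _ => 1) (fun _ => 1)

private theorem amgmB_posDef : (amgmB n).PosDef := by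
  have h := Matrix.posSemidef_vecMulVec_self_star (fun _ : Fin n => (1 : ℝ))
  have h2 : (star (fun _ : Fin n => (1 : ℝ)) : Fin n → ℝ) = fun _ => 1 := by
    funext i
    simp
  rw [h2] at h
  exact Matrix.PosDef.one.add_posSemidef h

private theorem amgmB_det : (amgmB n).det = (n : ℝ) + 1 := by
  have h1 : amgmB n = 1 + Matrix.replicateCol Unit (fun _ : Fin n => (1 : ℝ)) *
        Matrix.replicateRow Unit (fun _ : Fin n => (1 : ℝ)) := by
    ext i j
    simp [amgmB, Matrix.vecMulVec_apply, Matrix.mul_apply]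
  rw [h1, Matrix.det_one_add_replicateCol_mul_replicateRow]
  simp [dotProduct]
  ring

private theorem amgmB_trace (S : Matrix (Fin n) (Fin n) ℝ) :
    (amgmB n * S).trace = ∑ i, S i i + ∑ i, ∑ j, S i j := by
  rw [amgmB, Matrix.add_mul, Matrix.one_mul, Matrix.trace_add]
  congr 1
  simp only [Matrix.trace, Matrix.diag_apply, Matrix.mul_apply, Matrix.vecMulVec_apply, one_mul]
  exact Finset.sum_comm

private theorem amgm_int {K : Set (Fin n → ℝ)} (hK : IsCompact K) {f : (Fin n → ℝ) → ℝ}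
    (hf : Continuous f) : IntegrableOn f K := hf.continuousOn.integrableOn_compact hK

private theorem amgm_QQc : Continuous (QQ : (Fin n → ℝ) → ℝ) := by
  unfold QQ
  fun_prop

private theorem amgm_one (K : Set (Fin n → ℝ)) : ∫ _x in K, (1 : ℝ) = (volume K).toReal := by
  rw [setIntegral_const, smul_eq_mul, mul_one]
  rfl

/-- the integral of `QQ` by moments -/
private theorem amgm_QQ {K : Set (Fin n → ℝ)} (hK : IsCompact K) :
    ∫ x in K, QQ x = ∑ i, (∫ x in K, x i * x i) + ∑ i, ∑ j, (∫ x in K, x i * x j) -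
      2 * ∑ i, (∫ x in K, x i) + (volume K).toReal := by
  have e : (fun x : Fin n → ℝ => QQ x) = fun x => (∑ i, x i * x i + ∑ i, ∑ j, x i * x j -
      2 * ∑ i, x i) + 1 := by
    funext x
    unfold QQ
    rw [← Finset.sum_mul_sum]
    have : ∑ i, x i ^ 2 = ∑ i, x i * x i := Finset.sum_congr rfl fun i _ => sq _
    rw [this]
    ring
  have h1 : ∫ x in K, ∑ i, x i * x i = ∑ i, ∫ x in K, x i * x i :=
    integral_finsetSum _ fun i _ => amgm_int hK (by fun_prop)
  have h2 : ∫ x in K, ∑ i, ∑ j, x i * x j = ∑ i, ∑ j, ∫ x in K, x i * x j := by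
    rw [integral_finsetSum _ fun i _ => amgm_int hK (by fun_prop)]
    exact Finset.sum_congr rfl fun i _ =>
      integral_finsetSum _ fun j _ => amgm_int hK (by fun_prop)
  have h3 : ∫ x in K, 2 * ∑ i, x i = 2 * ∑ i, ∫ x in K, x i := by
    rw [integral_const_mul, integral_finsetSum _ fun i _ => amgm_int hK (by fun_prop)]
  rw [e, integral_add (amgm_int hK (by fun_prop)) (amgm_int hK (by fun_prop)),
    integral_sub (amgm_int hK (by fun_prop)) (amgm_int hK (by fun_prop)),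
    integral_add (amgm_int hK (by fun_prop)) (amgm_int hK (by fun_prop)), h1, h2, h3, amgm_one]

private theorem amgm_std : ∫ x in stdS n, QQ x = 2 / (((n : ℝ) + 2) * (n.factorial : ℝ)) := by
  rw [amgm_QQ (stdS_compact n)]
  have h0 : ∀ i : Fin n, ∫ x in stdS n, x i * x i = 2 / ((n + 2).factorial : ℝ) := by
    intro i
    rw [simp_two, if_pos rfl]
  have h1 : ∀ i : Fin n, ∑ j : Fin n, ∫ x in stdS n, x i * x j =
      ((n : ℝ) + 1) / ((n + 2).factorial : ℝ) := by
    intro i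
    simp only [simp_two]
    rw [← Finset.sum_div]
    congr 1
    have : ∀ j : Fin n, (if i = j then (2 : ℝ) else 1) = 1 + if i = j then 1 else 0 := by
      intro j
      split_ifs <;> norm_num
    simp only [this, Finset.sum_add_distrib, Finset.sum_ite_eq, Finset.mem_univ, if_true,
      Finset.sum_const, Finset.card_univ, Fintype.card_fin, nsmul_eq_mul, mul_one]
  simp only [h0, h1, simp_one, simp_vol]
  simp only [Finset.sum_const, Finset.card_univ, Fintype.card_fin, nsmul_eq_mul,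
    Nat.factorial_succ]
  have hf : (n.factorial : ℝ) ≠ 0 := by positivity
  push_cast
  field_simp
  ring

private theorem amgm_cs (c : Fin n → ℝ) :
    1 ≤ ((n : ℝ) + 1) * (∑ i, c i ^ 2 + (1 - ∑ i, c i) ^ 2) := by
  have hn1 : (0 : ℝ) < (n : ℝ) + 1 := by positivity
  have h : 0 ≤ ∑ i, (c i - 1 / ((n : ℝ) + 1)) ^ 2 +
      ((1 - ∑ i, c i) - 1 / ((n : ℝ) + 1)) ^ 2 := by positivity
  have e : ∑ i, (c i - 1 / ((n : ℝ) + 1)) ^ 2 = ∑ i, c i ^ 2 -
      2 * (1 / ((n : ℝ) + 1)) * ∑ i, c i + n * (1 / ((n : ℝ) + 1)) ^ 2 := by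
    have : ∀ i, (c i - 1 / ((n : ℝ) + 1)) ^ 2 = c i ^ 2 - 2 * (1 / ((n : ℝ) + 1)) * c i +
      (1 / ((n : ℝ) + 1)) ^ 2 := fun i => by ring
    simp only [this, Finset.sum_add_distrib, Finset.sum_sub_distrib, ← Finset.mul_sum,
      Finset.sum_const, Finset.card_univ, Fintype.card_fin, nsmul_eq_mul]
  rw [e] at h
  have h2 : ∑ i, c i ^ 2 - 2 * (1 / ((n : ℝ) + 1)) * ∑ i, c i + n * (1 / ((n : ℝ) + 1)) ^ 2 +
      ((1 - ∑ i, c i) - 1 / ((n : ℝ) + 1)) ^ 2 =
      (((n : ℝ) + 1) * (∑ i, c i ^ 2 + (1 - ∑ i, c i) ^ 2) - 1) / ((n : ℝ) + 1) := by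
    field_simp
    ring
  rw [h2] at h
  have h3 := (div_nonneg_iff.1 h)
  rcases h3 with h3 | h3
  · linarith [h3.1]
  · exact absurd h3.2 (not_le.2 hn1)

private theorem amgm_Q1 {K : Set (Fin n → ℝ)} (hK : IsCompact K) :
    ∫ x in K, (((n : ℝ) + 1) * QQ x - 1) =
      ((n : ℝ) + 1) * (∫ x in K, QQ x) - (volume K).toReal := by
  rw [integral_sub (amgm_int hK (amgm_QQc.const_mul _))
    (amgm_int hK continuous_const), integral_const_mul, amgm_one]

/-- the trace is bounded by the integral -/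
private theorem amgm_trace {K : Set (Fin n → ℝ)} (hK : ConvBody n K) :
    (amgmB n * SM K).trace ≤
      ((n : ℝ) + 2) / (volume K).toReal * ∫ x in K, (((n : ℝ) + 1) * QQ x - 1) := by
  have hV := convBody_vol_pos hK
  have hn1 : (0 : ℝ) < (n : ℝ) + 1 := by positivity
  have hm : ∀ i j, ∫ x in K, x i * x j = mom2 K i j * (volume K).toReal := by
    intro i j
    unfold mom2
    field_simp
  have hc : ∀ i, ∫ x in K, x i = cen K i * (volume K).toReal := by
    intro i
    unfold cen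
    field_simp
  have hQ := amgm_QQ hK.compact
  simp only [hm, hc, ← Finset.sum_mul] at hQ
  have hS : ∀ i j, SM K i j = ((n : ℝ) + 1) * ((n : ℝ) + 2) *
      (mom2 K i j - cen K i * cen K j) := by
    intro i j
    rw [← covM_eq hK]
    rfl
  have t1 : ∑ i, SM K i i = ((n : ℝ) + 1) * ((n : ℝ) + 2) *
      (∑ i, mom2 K i i - ∑ i, cen K i ^ 2) := by
    have e2 : ∑ i, cen K i * cen K i = ∑ i, cen K i ^ 2 :=
      Finset.sum_congr rfl fun i _ => (sq _).symm
    simp only [hS, ← Finset.mul_sum, Finset.sum_sub_distrib]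
    rw [e2]
  have t2 : ∑ i, ∑ j, SM K i j = ((n : ℝ) + 1) * ((n : ℝ) + 2) *
      (∑ i, ∑ j, mom2 K i j - (∑ i, cen K i) ^ 2) := by
    have e2 : ∑ i, cen K i * ∑ j, cen K j = (∑ i, cen K i) ^ 2 := by
      rw [← Finset.sum_mul, sq]
    simp only [hS, ← Finset.mul_sum, Finset.sum_sub_distrib]
    rw [e2]
  rw [amgmB_trace, t1, t2, amgm_Q1 hK.compact, hQ]
  have hcs := amgm_cs (cen K)
  generalize ∑ i, mom2 K i i = a at *
  generalize ∑ i, ∑ j, mom2 K i j = b at *
  generalize ∑ i, cen K i = s at *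
  generalize ∑ i, cen K i ^ 2 = q at *
  have e : ((n : ℝ) + 2) / (volume K).toReal * (((n : ℝ) + 1) *
      (a * (volume K).toReal + b * (volume K).toReal - 2 * (s * (volume K).toReal) +
        (volume K).toReal) - (volume K).toReal) =
      ((n : ℝ) + 2) * (((n : ℝ) + 1) * (a + b - 2 * s + 1) - 1) := by
    field_simp
  rw [e]
  have h2 : (0 : ℝ) ≤ ((n : ℝ) + 2) * (((n : ℝ) + 1) * (q + (1 - s) ^ 2) - 1) := by
    apply mul_nonneg (by positivity)
    linarith
  nlinarith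

theorem rat_lt_of_integral (hn : 1 ≤ n) {K : Set (Fin n → ℝ)} (hK : ConvBody n K)
    (hsub : K ⊆ stdS n) (hpos : 0 < (volume (stdS n \ K)).toReal)
    (hint : 0 ≤ ∫ x in stdS n \ K, (((n : ℝ) + 1) * QQ x - 2)) : Rat K < 1 := by
  have hn' : (0 : ℝ) < n := by exact_mod_cast hn
  have hV := convBody_vol_pos hK
  have hf : (0 : ℝ) < (n.factorial : ℝ) := by positivity
  have hKm := hK.compact.measurableSet
  have hSm := (stdS_compact n).measurableSet
  have hSf : volume (stdS n) ≠ ⊤ := (stdS_compact n).measure_lt_top.ne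
  have hKf : volume K ≠ ⊤ := hK.compact.measure_lt_top.ne
  have hD : (volume (stdS n \ K)).toReal = 1 / (n.factorial : ℝ) - (volume K).toReal := by
    rw [measure_sdiff hsub hKm.nullMeasurableSet hKf, ENNReal.toReal_sub_of_le
      (measure_mono hsub) hSf, simp_vol]
  set V := (volume K).toReal with hVdef
  set t := (n.factorial : ℝ) * V with ht
  have ht0 : 0 < t := mul_pos hf hV
  have ht1 : t < 1 := by
    rw [hD] at hpos
    have h1 : V < 1 / (n.factorial : ℝ) := by linarith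
    rw [lt_div_iff₀ hf] at h1
    rw [ht]
    linarith
  have hVt : V = t / (n.factorial : ℝ) := by
    rw [ht]
    field_simp
  -- integrals
  have hQS : IntegrableOn (fun x : Fin n → ℝ => ((n : ℝ) + 1) * QQ x - 1) (stdS n) :=
    amgm_int (stdS_compact n) ((amgm_QQc.const_mul _).sub continuous_const)
  have hsplit : ∫ x in stdS n, (((n : ℝ) + 1) * QQ x - 1) =
      (∫ x in K, (((n : ℝ) + 1) * QQ x - 1)) +
        ∫ x in stdS n \ K, (((n : ℝ) + 1) * QQ x - 1) := by
    have h1 := setIntegral_sdiff hKm hQS hsub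
    linarith
  have hd1 : ∫ x in stdS n \ K, (((n : ℝ) + 1) * QQ x - 1) =
      (∫ x in stdS n \ K, (((n : ℝ) + 1) * QQ x - 2)) + (volume (stdS n \ K)).toReal := by
    have h1 : IntegrableOn (fun x : Fin n → ℝ => ((n : ℝ) + 1) * QQ x - 2) (stdS n \ K) :=
      (amgm_int (stdS_compact n) ((amgm_QQc.const_mul _).sub continuous_const)).mono_set
        sdiff_subset
    have h2 : IntegrableOn (fun _ : Fin n → ℝ => (1 : ℝ)) (stdS n \ K) :=
      (amgm_int (stdS_compact n) continuous_const).mono_set sdiff_subset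
    rw [← amgm_one (stdS n \ K), ← integral_add h1 h2]
    refine integral_congr_ae (Filter.Eventually.of_forall fun x => ?_)
    ring
  have hstd : ∫ x in stdS n, (((n : ℝ) + 1) * QQ x - 1) =
      (n : ℝ) / ((n : ℝ) + 2) * (1 / (n.factorial : ℝ)) := by
    rw [amgm_Q1 (stdS_compact n), amgm_std, simp_vol]
    field_simp
    ring
  have hK1 : ∫ x in K, (((n : ℝ) + 1) * QQ x - 1) ≤
      (n : ℝ) / ((n : ℝ) + 2) * (1 / (n.factorial : ℝ)) - (1 / (n.factorial : ℝ) - V) := by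
    rw [hstd, hd1, hD] at hsplit
    linarith
  -- trace
  have htr := amgm_trace hK
  rw [← hVdef] at htr
  have htr2 : (amgmB n * SM K).trace / n ≤ (1 - ((n : ℝ) + 2) / n * (1 - t)) / t := by
    have h1 : ((n : ℝ) + 2) / V * ∫ x in K, (((n : ℝ) + 1) * QQ x - 1) ≤
        ((n : ℝ) + 2) / V * ((n : ℝ) / ((n : ℝ) + 2) * (1 / (n.factorial : ℝ)) -
          (1 / (n.factorial : ℝ) - V)) :=
      mul_le_mul_of_nonneg_left hK1 (by positivity)
    have h2 : ((n : ℝ) + 2) / V * ((n : ℝ) / ((n : ℝ) + 2) * (1 / (n.factorial : ℝ)) -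
          (1 / (n.factorial : ℝ) - V)) = n * ((1 - ((n : ℝ) + 2) / n * (1 - t)) / t) := by
      rw [hVt]
      field_simp
    rw [div_le_iff₀ hn', mul_comm _ (n : ℝ)]
    linarith
  have htr0 : 0 ≤ (amgmB n * SM K).trace / n := by
    refine div_nonneg ?_ hn'.le
    rw [amgmB_trace]
    have hP := (SM_posDef hK).posSemidef
    have h1 : ∀ i, 0 ≤ SM K i i := fun i => hP.diag_nonneg
    have h2 := hP.dotProduct_mulVec_nonneg (fun _ => (1 : ℝ))
    have h3 : star (fun _ : Fin n => (1 : ℝ)) ⬝ᵥ (SM K).mulVec (fun _ => 1) =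
        ∑ i, ∑ j, SM K i j := by
      simp [dotProduct, Matrix.mulVec]
    rw [h3] at h2
    exact add_nonneg (Finset.sum_nonneg fun i _ => h1 i) h2
  have hb0 : 0 ≤ 1 - ((n : ℝ) + 2) / n * (1 - t) := by
    have h1 := htr0.trans htr2
    have h2 := mul_nonneg h1 ht0.le
    rwa [div_mul_cancel₀ _ ht0.ne'] at h2
  have hdet := det_mul_det_le hn (SM_posDef hK).posSemidef (amgmB_posDef (n := n))
  rw [amgmB_det] at hdet
  have hR : Rat K = (SM K).det * ((n : ℝ) + 1) / t ^ 2 := by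
    unfold Rat
    rw [← hVdef, ← ht]
    ring
  have h5 : Rat K ≤ ((1 - ((n : ℝ) + 2) / n * (1 - t)) / t) ^ n / t ^ 2 := by
    rw [hR]
    refine div_le_div_of_nonneg_right (hdet.trans ?_) (by positivity)
    exact pow_le_pow_left₀ htr0 htr2 n
  refine h5.trans_lt ?_
  rw [div_pow, div_div, ← pow_add, div_lt_one (by positivity)]
  exact bernoulli_strict hn ht0 ht1 hb0

end Vale.Agent.P254U
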