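import Mathlib

/-!
P254U/LM/CIa: the radial inequality.

`H` convex on `[0,1]`, `H ≥ 0`, `H 0 = 0`, so `H τ / τ` is nondecreasing.  The function
`r τ = (n+3)/(n+2) τ² - (n+1)/(n+2) - 2/((n+2)(n+4))` is increasing on `[0,1]` with a zero `τ₀ ∈ (0,1)`
(`r 0 < 0 < r 1`), so `H τ r τ ≥ (H τ₀ / τ₀) τ r τ` for all `τ ∈ [0,1]`, and
`∫_0^1 τ^n · τ r τ dτ = (n+3)/((n+2)(n+4)) - (n+1)/(n+2)² - 2/((n+2)²(n+4)) = 0`.
-/

open MeasureTheory Set

namespace Vale.Agent.P254U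

/-- the radial integral vanishes -/
theorem CIa_integral (n : ℕ) :
    ∫ τ in (0 : ℝ)..1, τ ^ n * (τ * (((n : ℝ) + 3) / ((n : ℝ) + 2) * τ ^ 2 -
      ((n : ℝ) + 1) / ((n : ℝ) + 2) - 2 / (((n : ℝ) + 2) * ((n : ℝ) + 4)))) = 0 := by
  have h₁ : ∀ τ : ℝ, τ ^ n * (τ * (((n : ℝ) + 3) / ((n : ℝ) + 2) * τ ^ 2 -
      ((n : ℝ) + 1) / ((n : ℝ) + 2) - 2 / (((n : ℝ) + 2) * ((n : ℝ) + 4)))) =
      ((n : ℝ) + 3) / ((n : ℝ) + 2) * τ ^ (n + 3) -
      (((n : ℝ) + 1) / ((n : ℝ) + 2) + 2 / (((n : ℝ) + 2) * ((n : ℝ) + 4))) * τ ^ (n + 1) := by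
    intro τ
    ring
  simp_rw [h₁]
  rw [intervalIntegral.integral_sub (by apply Continuous.intervalIntegrable; fun_prop)
    (by apply Continuous.intervalIntegrable; fun_prop), intervalIntegral.integral_const_mul,
    intervalIntegral.integral_const_mul, integral_pow, integral_pow]
  have h2 : ((n : ℝ) + 2) ≠ 0 := by positivity
  have h4 : ((n : ℝ) + 4) ≠ 0 := by positivity
  push_cast
  have e3 : (n : ℝ) + 3 + 1 = n + 4 := by ring
  have e1 : (n : ℝ) + 1 + 1 = n + 2 := by ring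
  rw [e3, e1]
  simp only [one_pow, ne_eq, Nat.add_eq_zero_iff, OfNat.ofNat_ne_zero, one_ne_zero, and_false,
    not_false_eq_true, zero_pow, sub_zero]
  field_simp
  ring

/-- comparison with a linear function -/
theorem CIa_point {H : ℝ → ℝ} (hc : ConvexOn ℝ (Icc 0 1) H) (h0 : H 0 = 0) {a t : ℝ}
    (ha : 0 < a) (hat : a ≤ t) (ht : t ≤ 1) : H a ≤ a / t * H t := by
  have htp : 0 < t := ha.trans_le hat
  have h₁ : 0 ≤ a / t := by positivity
  have h₂ : a / t ≤ 1 := by rwa [div_le_one htp]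
  have m0 : (0 : ℝ) ∈ Icc (0 : ℝ) 1 := ⟨le_refl _, zero_le_one⟩
  have m1 : t ∈ Icc (0 : ℝ) 1 := ⟨htp.le, ht⟩
  have m2 : 0 ≤ 1 - a / t := by linarith
  have h₃ := hc.2 m0 m1 m2 h₁ (by ring)
  simp only [smul_eq_mul, mul_zero, zero_add, h0] at h₃
  rwa [div_mul_cancel₀ _ htp.ne'] at h₃

theorem radial_ineq (n : ℕ) {H : ℝ → ℝ} (hc : ConvexOn ℝ (Icc 0 1) H)
    (hn : ∀ τ ∈ Icc (0 : ℝ) 1, 0 ≤ H τ) (h0 : H 0 = 0) (hi : IntervalIntegrable H volume 0 1) :
    0 ≤ ∫ τ in (0 : ℝ)..1, τ ^ n * (H τ * (((n : ℝ) + 3) / ((n : ℝ) + 2) * τ ^ 2 -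
      ((n : ℝ) + 1) / ((n : ℝ) + 2) - 2 / (((n : ℝ) + 2) * ((n : ℝ) + 4)))) := by
  set A : ℝ := ((n : ℝ) + 3) / ((n : ℝ) + 2) with hA
  set B : ℝ := ((n : ℝ) + 1) / ((n : ℝ) + 2) with hB
  set C : ℝ := 2 / (((n : ℝ) + 2) * ((n : ℝ) + 4)) with hC
  have hA0 : 0 < A := by positivity
  have hB0 : 0 < B := by positivity
  have hC0 : 0 < C := by positivity
  have hABC : B + C < A := by
    have h2 : (0 : ℝ) < (n : ℝ) + 2 := by positivity
    have h4 : (0 : ℝ) < (n : ℝ) + 4 := by positivity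
    have : A - (B + C) = 2 * ((n : ℝ) + 3) / (((n : ℝ) + 2) * ((n : ℝ) + 4)) := by
      rw [hA, hB, hC]
      field_simp
      ring
    have h3 : 0 < 2 * ((n : ℝ) + 3) / (((n : ℝ) + 2) * ((n : ℝ) + 4)) := by positivity
    linarith
  obtain ⟨a, ha0, ha1, har⟩ : ∃ a : ℝ, 0 < a ∧ a < 1 ∧ A * a ^ 2 = B + C := by
    refine ⟨√((B + C) / A), by positivity, ?_, ?_⟩
    · rw [Real.sqrt_lt' one_pos, one_pow, div_lt_one hA0]
      exact hABC
    · rw [Real.sq_sqrt (by positivity)]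
      field_simp
  have hpt : ∀ τ ∈ Icc (0 : ℝ) 1, H a / a * (τ ^ n * (τ * (A * τ ^ 2 - B - C))) ≤
      τ ^ n * (H τ * (A * τ ^ 2 - B - C)) := by
    intro τ hτ
    have h₁ : H a / a * (τ * (A * τ ^ 2 - B - C)) ≤ H τ * (A * τ ^ 2 - B - C) := by
      rcases le_total τ a with h | h
      · have h₂ : A * τ ^ 2 - B - C ≤ 0 := by
          have : τ ^ 2 ≤ a ^ 2 := by
            have := hτ.1
            nlinarith
          nlinarith
        have h₃ : H τ ≤ H a / a * τ := by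
          rcases hτ.1.eq_or_lt with h₄ | h₄
          · rw [← h₄, h0, mul_zero]
          · have := CIa_point hc h0 h₄ h ha1.le
            calc H τ ≤ τ / a * H a := this
              _ = H a / a * τ := by ring
        have h₅ := mul_le_mul_of_nonpos_right h₃ h₂
        calc H a / a * (τ * (A * τ ^ 2 - B - C)) = H a / a * τ * (A * τ ^ 2 - B - C) := by ring
          _ ≤ H τ * (A * τ ^ 2 - B - C) := h₅
      · have h₂ : 0 ≤ A * τ ^ 2 - B - C := by
          have : a ^ 2 ≤ τ ^ 2 := by nlinarith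
          nlinarith
        have h₃ : H a / a * τ ≤ H τ := by
          have h₄ := CIa_point hc h0 ha0 h hτ.2
          have hτ0 : 0 < τ := ha0.trans_le h
          calc H a / a * τ ≤ (a / τ * H τ) / a * τ := by gcongr
            _ = H τ := by field_simp
        have h₅ := mul_le_mul_of_nonneg_right h₃ h₂
        calc H a / a * (τ * (A * τ ^ 2 - B - C)) = H a / a * τ * (A * τ ^ 2 - B - C) := by ring
          _ ≤ H τ * (A * τ ^ 2 - B - C) := h₅
    have h₂ := mul_le_mul_of_nonneg_left h₁ (pow_nonneg hτ.1 n)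
    calc H a / a * (τ ^ n * (τ * (A * τ ^ 2 - B - C))) =
        τ ^ n * (H a / a * (τ * (A * τ ^ 2 - B - C))) := by ring
      _ ≤ _ := h₂
  have hint : IntervalIntegrable (fun τ => τ ^ n * (H τ * (A * τ ^ 2 - B - C))) volume 0 1 := by
    have h₁ := hi.mul_continuousOn (g := fun τ : ℝ => A * τ ^ 2 - B - C) (by fun_prop)
    have h₂ := h₁.continuousOn_mul (g := fun τ : ℝ => τ ^ n) (by fun_prop)
    exact h₂
  have hint2 : IntervalIntegrable (fun τ => H a / a * (τ ^ n * (τ * (A * τ ^ 2 - B - C)))) volume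
      0 1 := by
    apply Continuous.intervalIntegrable
    fun_prop
  have h₁ := intervalIntegral.integral_mono_on zero_le_one hint2 hint hpt
  rw [intervalIntegral.integral_const_mul] at h₁
  have h₂ := CIa_integral n
  rw [← hA, ← hB, ← hC] at h₂
  rw [h₂, mul_zero] at h₁
  exact h₁

end Vale.Agent.P254U
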