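import Vale.Agent.Lib.P254U.LM.Defs

/-!
P254U/LM/CIsub: supporting affine functions, and integrals of affine functions.

`exists_subgradient`: a convex function on `ℝ^n` is continuous (`ConvexOn.continuousOn` on open
sets in finite dimension); separate `(z, h z)` from the open convex set `{(x, t) : h x < t}`
(`geometric_hahn_banach_open_point` or similar).
`CI_affine`: `stdS_moment` (`simp_one`, `simp_two` and third moments), by linearity and symmetry.
-/

open MeasureTheory Set

namespace Vale.Agent.P254U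

/-- subgradients of convex functions on `ℝ^n` -/
theorem exists_subgradient {n : ℕ} {h : (Fin n → ℝ) → ℝ} (hc : ConvexOn ℝ univ h)
    (z : Fin n → ℝ) : ∃ a : Fin n → ℝ, ∀ x, h z + ∑ i, a i * (x i - z i) ≤ h x := by
  have hcont : Continuous h := by
    rw [← continuousOn_univ]
    exact hc.continuousOn isOpen_univ
  have hconv : Convex ℝ {p : (Fin n → ℝ) × ℝ | h p.1 < p.2} := by
    have h1 := hc.convex_strict_epigraph
    simpa using h1
  have hopen : IsOpen {p : (Fin n → ℝ) × ℝ | h p.1 < p.2} :=
    isOpen_lt (hcont.comp continuous_fst) continuous_snd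
  obtain ⟨f, hf⟩ := geometric_hahn_banach_open_point (x := (z, h z)) hconv hopen
    (by simp)
  have hlin : ∀ (x : Fin n → ℝ) (t : ℝ), f (x, t) = f (x, 0) + t * f (0, 1) := by
    intro x t
    have h1 : ((x, t) : (Fin n → ℝ) × ℝ) = (x, 0) + t • ((0, 1) : (Fin n → ℝ) × ℝ) := by
      ext <;> simp
    rw [h1, map_add, map_smul, smul_eq_mul]
  set c : ℝ := f (0, 1) with hcdef
  have hc0 : c < 0 := by
    have h1 := hf (z, h z + 1) (by simp)
    rw [hlin z (h z + 1), hlin z (h z)] at h1
    linarith
  have hle : ∀ x : Fin n → ℝ, f (x, 0) + h x * c ≤ f (z, 0) + h z * c := by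
    intro x
    refine le_of_forall_pos_le_add fun ε hε => ?_
    have h1 := hf (x, h x + ε / (-c)) (by
      have : 0 < ε / (-c) := div_pos hε (by linarith)
      simpa using this)
    rw [hlin x (h x + ε / (-c)), hlin z (h z)] at h1
    have h2 : ε / (-c) * c = -ε := by
      have hcne : c ≠ 0 := hc0.ne
      field_simp
    nlinarith
  have hsum : ∀ x : Fin n → ℝ, f (x, 0) = ∑ i, x i * f (Pi.single i 1, 0) := by
    intro x
    have h1 : ((x, 0) : (Fin n → ℝ) × ℝ) =
        ∑ i, x i • ((Pi.single i 1, 0) : (Fin n → ℝ) × ℝ) := by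
      ext j
      · rw [Prod.fst_sum, Finset.sum_apply, Finset.sum_eq_single j]
        · simp
        · intro i _ hij
          simp [Ne.symm hij]
        · intro h
          exact absurd (Finset.mem_univ j) h
      · simp [Prod.snd_sum]
    rw [h1, map_sum]
    exact Finset.sum_congr rfl fun i _ => by rw [map_smul, smul_eq_mul]
  refine ⟨fun i => f (Pi.single i 1, 0) / (-c), fun x => ?_⟩
  have h1 : ∑ i, f (Pi.single i 1, 0) / (-c) * (x i - z i) = (f (x, 0) - f (z, 0)) / (-c) := by
    rw [hsum x, hsum z, ← Finset.sum_sub_distrib, Finset.sum_div]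
    exact Finset.sum_congr rfl fun i _ => by ring
  rw [h1]
  have h2 := hle x
  have h3 : (f (x, 0) - f (z, 0)) / (-c) ≤ h x - h z := by
    rw [div_le_iff₀ (by linarith)]
    nlinarith
  linarith

private theorem CIsub_prod {n : ℕ} (α : Fin n → ℕ) (k : Fin n) :
    ∏ l, (((α + Pi.single k 1 : Fin n → ℕ) l).factorial : ℝ) =
      ((α k : ℝ) + 1) * ∏ l, ((α l).factorial : ℝ) := by
  rw [← Finset.mul_prod_erase Finset.univ _ (Finset.mem_univ k),
    ← Finset.mul_prod_erase Finset.univ (fun l => ((α l).factorial : ℝ)) (Finset.mem_univ k)]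
  have h1 : ∏ l ∈ Finset.univ.erase k, (((α + Pi.single k 1 : Fin n → ℕ) l).factorial : ℝ) =
      ∏ l ∈ Finset.univ.erase k, ((α l).factorial : ℝ) := by
    refine Finset.prod_congr rfl fun l hl => ?_
    rw [Pi.add_apply, Pi.single_eq_of_ne (Finset.ne_of_mem_erase hl), add_zero]
  rw [h1, Pi.add_apply, Pi.single_eq_same, Nat.factorial_succ]
  push_cast
  ring

private theorem CIsub_three (n : ℕ) (i j k : Fin n) :
    ∫ x in stdS n, x i * x j * x k =
      ((if k = i then (1 : ℝ) else 0) + (if k = j then 1 else 0) + 1) *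
        ((if j = i then (1 : ℝ) else 0) + 1) / ((n + 3).factorial : ℝ) := by
  have h := stdS_moment n (Pi.single i 1 + Pi.single j 1 + Pi.single k 1)
  have h1 : ∀ x : Fin n → ℝ,
      ∏ l, x l ^ ((Pi.single i 1 + Pi.single j 1 + Pi.single k 1 : Fin n → ℕ) l) =
      x i * x j * x k := by
    intro x
    have h0 : ∀ i : Fin n, ∏ k, x k ^ ((Pi.single i 1 : Fin n → ℕ) k) = x i := by
      intro i
      rw [Finset.prod_eq_single i]
      · simp
      · intro j _ hj
        simp [Pi.single_eq_of_ne hj]
      · intro h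
        exact absurd (Finset.mem_univ i) h
    simp only [Pi.add_apply, pow_add, Finset.prod_mul_distrib, h0]
  have h0 : ∏ l, (((Pi.single i 1 : Fin n → ℕ) l).factorial : ℝ) = 1 := by
    refine Finset.prod_eq_one fun j _ => ?_
    by_cases hj : j = i
    · subst hj; simp
    · simp [Pi.single_eq_of_ne hj]
  have h2 : ∏ l, (((Pi.single i 1 + Pi.single j 1 + Pi.single k 1 : Fin n → ℕ) l).factorial : ℝ) =
      ((if k = i then (1 : ℝ) else 0) + (if k = j then 1 else 0) + 1) *
        ((if j = i then (1 : ℝ) else 0) + 1) := by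
    rw [CIsub_prod, CIsub_prod, h0, mul_one]
    simp only [Pi.add_apply, Pi.single_apply]
    push_cast
    rfl
  have h3 : ∑ l, (Pi.single i 1 + Pi.single j 1 + Pi.single k 1 : Fin n → ℕ) l = 3 := by
    simp only [Pi.add_apply, Finset.sum_add_distrib]
    rw [Finset.sum_pi_single', Finset.sum_pi_single', Finset.sum_pi_single']
    simp
  simp only [h1, h3] at h
  rw [h, h2]

private theorem CIsub_int (n : ℕ) {f : (Fin n → ℝ) → ℝ} (hf : Continuous f) :
    IntegrableOn f (stdS n) :=
  hf.continuousOn.integrableOn_compact (stdS_compact n)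

private theorem CIsub_QQ {n : ℕ} (x : Fin n → ℝ) :
    QQ x = ∑ j, x j * x j + 1 - 2 * ∑ j, x j + ∑ j, ∑ k, x j * x k := by
  have h1 : ∑ j, ∑ k, x j * x k = (∑ j, x j) * ∑ k, x k := by
    rw [Finset.sum_mul_sum]
  rw [QQ, h1]
  have h2 : ∑ j, x j ^ 2 = ∑ j, x j * x j := Finset.sum_congr rfl fun j _ => sq _
  rw [h2]
  ring

private theorem CIsub_QQ_cont (n : ℕ) : Continuous (QQ : (Fin n → ℝ) → ℝ) := by
  unfold QQ
  fun_prop

private theorem CIsub_zero (n : ℕ) :
    ∫ x in stdS n, QQ x = 2 / (((n : ℝ) + 2) * (n.factorial : ℝ)) := by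
  simp only [CIsub_QQ]
  rw [integral_add (CIsub_int n (by fun_prop)) (CIsub_int n (by fun_prop)),
    integral_sub (CIsub_int n (by fun_prop)) (CIsub_int n (by fun_prop)),
    integral_add (CIsub_int n (by fun_prop)) (CIsub_int n (by fun_prop)),
    integral_const_mul,
    integral_finsetSum _ (fun j _ => CIsub_int n (by fun_prop)),
    integral_finsetSum _ (fun j _ => CIsub_int n (by fun_prop)),
    integral_finsetSum _ (fun j _ => CIsub_int n (by fun_prop))]
  have e1 : ∀ j : Fin n, ∫ x in stdS n, ∑ k, x j * x k =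
      ∑ k, ∫ x in stdS n, x j * x k := fun j =>
    integral_finsetSum _ (fun k _ => CIsub_int n (by fun_prop))
  simp only [e1, simp_two, simp_one]
  have e2 : ∫ _ in stdS n, (1 : ℝ) = 1 / (n.factorial : ℝ) := by
    rw [setIntegral_const, Measure.real, simp_vol, smul_eq_mul, mul_one]
  have e3 : ∀ j : Fin n, ∑ k, (if j = k then (2 : ℝ) else 1) / ((n + 2).factorial : ℝ) =
      ((n : ℝ) + 1) / ((n + 2).factorial : ℝ) := by
    intro j
    rw [← Finset.sum_div]
    congr 1
    have : ∀ k : Fin n, (if j = k then (2 : ℝ) else 1) = (if j = k then 1 else 0) + 1 := by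
      intro k
      split_ifs <;> norm_num
    simp only [this, Finset.sum_add_distrib, Finset.sum_ite_eq, Finset.mem_univ, if_true,
      Finset.sum_const, Finset.card_univ, Fintype.card_fin, nsmul_eq_mul, mul_one]
    ring
  rw [e2]
  simp only [e3, if_true, Finset.sum_const, Finset.card_univ, Fintype.card_fin, nsmul_eq_mul]
  rw [Nat.factorial_succ, Nat.factorial_succ]
  have := Nat.factorial_pos n
  push_cast
  field_simp
  ring

private theorem CIsub_lin (n : ℕ) (i : Fin n) :
    ∫ x in stdS n, x i * QQ x = 2 / (((n : ℝ) + 2) * ((n + 1).factorial : ℝ)) := by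
  have e0 : ∀ x : Fin n → ℝ, x i * QQ x = ∑ j, x i * x j * x j + x i - 2 * ∑ j, x i * x j +
      ∑ j, ∑ k, x i * x j * x k := by
    intro x
    rw [CIsub_QQ, mul_add, mul_sub, mul_add, mul_one, mul_left_comm, Finset.mul_sum,
      Finset.mul_sum, Finset.mul_sum]
    simp only [Finset.mul_sum, mul_assoc]
  simp only [e0]
  rw [integral_add (CIsub_int n (by fun_prop)) (CIsub_int n (by fun_prop)),
    integral_sub (CIsub_int n (by fun_prop)) (CIsub_int n (by fun_prop)),
    integral_add (CIsub_int n (by fun_prop)) (CIsub_int n (by fun_prop)),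
    integral_const_mul,
    integral_finsetSum _ (fun j _ => CIsub_int n (by fun_prop)),
    integral_finsetSum _ (fun j _ => CIsub_int n (by fun_prop)),
    integral_finsetSum _ (fun j _ => CIsub_int n (by fun_prop))]
  have e1 : ∀ j : Fin n, ∫ x in stdS n, ∑ k, x i * x j * x k =
      ∑ k, ∫ x in stdS n, x i * x j * x k := fun j =>
    integral_finsetSum _ (fun k _ => CIsub_int n (by fun_prop))
  simp only [e1, simp_two, simp_one, CIsub_three, if_true]
  have e3 : ∀ j : Fin n, ∑ k, ((if k = i then (1 : ℝ) else 0) + (if k = j then 1 else 0) + 1) *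
        ((if j = i then (1 : ℝ) else 0) + 1) / ((n + 3).factorial : ℝ) =
      ((if j = i then (1 : ℝ) else 0) + 1) * (((n : ℝ) + 2) / ((n + 3).factorial : ℝ)) := by
    intro j
    have h1 : ∀ k : Fin n, ((if k = i then (1 : ℝ) else 0) + (if k = j then 1 else 0) + 1) *
        ((if j = i then (1 : ℝ) else 0) + 1) / ((n + 3).factorial : ℝ) =
        ((if k = i then (1 : ℝ) else 0) + (if k = j then 1 else 0) + 1) *
        (((if j = i then (1 : ℝ) else 0) + 1) / ((n + 3).factorial : ℝ)) := fun k => by ring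
    simp only [h1]
    rw [← Finset.sum_mul]
    simp only [Finset.sum_add_distrib, Finset.sum_ite_eq', Finset.mem_univ, if_true,
      Finset.sum_const, Finset.card_univ, Fintype.card_fin, nsmul_eq_mul, mul_one]
    ring
  have e4 : ∑ j, ((if j = i then (1 : ℝ) else 0) + 1) * (((n : ℝ) + 2) / ((n + 3).factorial : ℝ)) =
      ((n : ℝ) + 1) * (((n : ℝ) + 2) / ((n + 3).factorial : ℝ)) := by
    rw [← Finset.sum_mul]
    simp only [Finset.sum_add_distrib, Finset.sum_ite_eq', Finset.mem_univ, if_true,
      Finset.sum_const, Finset.card_univ, Fintype.card_fin, nsmul_eq_mul, mul_one]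
    ring
  have e5 : ∑ j, ((if j = i then (1 : ℝ) else 0) + 1 + 1) *
        ((if j = i then (1 : ℝ) else 0) + 1) / ((n + 3).factorial : ℝ) =
      (2 * (n : ℝ) + 4) / ((n + 3).factorial : ℝ) := by
    rw [← Finset.sum_div]
    congr 1
    have h1 : ∀ j : Fin n, ((if j = i then (1 : ℝ) else 0) + 1 + 1) *
        ((if j = i then (1 : ℝ) else 0) + 1) = (if j = i then (4 : ℝ) else 0) + 2 := by
      intro j
      split_ifs <;> norm_num
    simp only [h1, Finset.sum_add_distrib, Finset.sum_ite_eq', Finset.mem_univ, if_true,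
      Finset.sum_const, Finset.card_univ, Fintype.card_fin, nsmul_eq_mul]
    ring
  have e6 : ∑ j, (if i = j then (2 : ℝ) else 1) / ((n + 2).factorial : ℝ) =
      ((n : ℝ) + 1) / ((n + 2).factorial : ℝ) := by
    rw [← Finset.sum_div]
    congr 1
    have : ∀ k : Fin n, (if i = k then (2 : ℝ) else 1) = (if i = k then 1 else 0) + 1 := by
      intro k
      split_ifs <;> norm_num
    simp only [this, Finset.sum_add_distrib, Finset.sum_ite_eq, Finset.mem_univ, if_true,
      Finset.sum_const, Finset.card_univ, Fintype.card_fin, nsmul_eq_mul, mul_one]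
    ring
  simp only [e3]
  rw [e4, e5, e6, Nat.factorial_succ (n + 2), Nat.factorial_succ (n + 1), Nat.factorial_succ n]
  have := Nat.factorial_pos n
  push_cast
  field_simp
  ring

theorem CI_affine (n : ℕ) (a : Fin n → ℝ) (b : ℝ) :
    ∫ x in stdS n, (b + ∑ i, a i * x i) * (((n : ℝ) + 2) * QQ x - 2) = 0 := by
  have hQ := CIsub_QQ_cont n
  have e0 : ∀ x : Fin n → ℝ, (b + ∑ i, a i * x i) * (((n : ℝ) + 2) * QQ x - 2) =
      (b * ((n : ℝ) + 2)) * QQ x - b * 2 +
        ∑ i, ((a i * ((n : ℝ) + 2)) * (x i * QQ x) - (a i * 2) * x i) := by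
    intro x
    rw [add_mul, Finset.sum_mul]
    congr 1
    · ring
    · exact Finset.sum_congr rfl fun i _ => by ring
  simp only [e0]
  rw [integral_add (CIsub_int n (by fun_prop)) (CIsub_int n (by fun_prop)),
    integral_sub (CIsub_int n (by fun_prop)) (CIsub_int n (by fun_prop)),
    integral_const_mul, CIsub_zero,
    integral_finsetSum _ (fun j _ => CIsub_int n (by fun_prop))]
  have e1 : ∀ i : Fin n, ∫ x in stdS n, ((a i * ((n : ℝ) + 2)) * (x i * QQ x) - (a i * 2) * x i) =
      0 := by
    intro i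
    rw [integral_sub (CIsub_int n (by fun_prop)) (CIsub_int n (by fun_prop)),
      integral_const_mul, integral_const_mul, CIsub_lin, simp_one]
    have := Nat.factorial_pos (n + 1)
    field_simp
    ring
  have e2 : ∫ _ in stdS n, b * 2 = b * 2 * (1 / (n.factorial : ℝ)) := by
    rw [setIntegral_const, Measure.real, simp_vol, smul_eq_mul, mul_comm]
  simp only [e1, Finset.sum_const_zero]
  rw [e2]
  have := Nat.factorial_pos n
  field_simp
  ring

end Vale.Agent.P254U
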