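import Vale.Agent.Lib.P254U.LM.Defs

/-!
P254U/LM/ChamB: decomposition of the standard simplex into cones over its facets.

`stdS_chambers`: the sets `sig c ⁻¹' chamber` cover `stdS (n+1)` and overlap in null sets (two equal
barycentric coordinates: a proper affine hyperplane), `sig c` is a volume preserving involution of
`stdS (n+1)` (for `none` the first coordinate is reflected for fixed other coordinates).
-/

open MeasureTheory Set

namespace Vale.Agent.P254U

variable {n : ℕ}

private theorem ChamB_none_zero (x : Fin (n + 1) → ℝ) : sig none x 0 = 1 - ∑ i, x i := rfl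

private theorem ChamB_none_succ (x : Fin (n + 1) → ℝ) (j : Fin n) :
    sig none x j.succ = x j.succ := rfl

private theorem ChamB_some (k : Fin (n + 1)) (x : Fin (n + 1) → ℝ) (j : Fin (n + 1)) :
    sig (some k) x j = x (Equiv.swap 0 k j) := rfl

private theorem ChamB_some_zero (k : Fin (n + 1)) (x : Fin (n + 1) → ℝ) :
    sig (some k) x 0 = x k := by
  rw [ChamB_some, Equiv.swap_apply_left]

private theorem ChamB_sum_none (x : Fin (n + 1) → ℝ) : ∑ i, sig none x i = 1 - x 0 := by
  rw [Fin.sum_univ_succ]
  simp only [ChamB_none_zero, ChamB_none_succ]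
  rw [Fin.sum_univ_succ]
  ring

private theorem ChamB_sum_some (k : Fin (n + 1)) (x : Fin (n + 1) → ℝ) :
    ∑ i, sig (some k) x i = ∑ i, x i := by
  simp only [ChamB_some]
  exact Equiv.sum_comp (Equiv.swap 0 k) x

theorem sig_sig (c : Option (Fin (n + 1))) (x : Fin (n + 1) → ℝ) : sig c (sig c x) = x := by
  funext i
  cases c with
  | none =>
    refine Fin.cases ?_ (fun j => ?_) i
    · rw [ChamB_none_zero, ChamB_sum_none]
      ring
    · rw [ChamB_none_succ, ChamB_none_succ]
  | some k =>
    rw [ChamB_some, ChamB_some, Equiv.swap_apply_self]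

theorem sig_mem {c : Option (Fin (n + 1))} {x : Fin (n + 1) → ℝ} (hx : x ∈ stdS (n + 1)) :
    sig c x ∈ stdS (n + 1) := by
  obtain ⟨h0, h1⟩ := hx
  cases c with
  | none =>
    refine ⟨fun i => ?_, ?_⟩
    · refine Fin.cases ?_ (fun j => ?_) i
      · rw [ChamB_none_zero]
        linarith
      · rw [ChamB_none_succ]
        exact h0 _
    · rw [ChamB_sum_none]
      linarith [h0 0]
  | some k =>
    refine ⟨fun i => ?_, ?_⟩
    · rw [ChamB_some]
      exact h0 _
    · rw [ChamB_sum_some]
      exact h1

/-- the linear part of `sig c` -/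
private noncomputable def ChamB_lin (c : Option (Fin (n + 1))) :
    (Fin (n + 1) → ℝ) →ₗ[ℝ] (Fin (n + 1) → ℝ) where
  toFun x := sig c x - sig c 0
  map_add' x y := by
    funext i
    cases c with
    | none =>
      refine Fin.cases ?_ (fun j => ?_) i
      · simp only [Pi.sub_apply, Pi.add_apply, ChamB_none_zero, Finset.sum_add_distrib,
          Pi.zero_apply, Finset.sum_const_zero]
        ring
      · simp only [Pi.sub_apply, Pi.add_apply, ChamB_none_succ, Pi.zero_apply]
        ring
    | some k =>
      simp only [Pi.sub_apply, Pi.add_apply, ChamB_some, Pi.zero_apply]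
      ring
  map_smul' r x := by
    funext i
    cases c with
    | none =>
      refine Fin.cases ?_ (fun j => ?_) i
      · simp only [Pi.sub_apply, Pi.smul_apply, ChamB_none_zero, smul_eq_mul,
          Pi.zero_apply, Finset.sum_const_zero, RingHom.id_apply, ← Finset.mul_sum]
        ring
      · simp only [Pi.sub_apply, Pi.smul_apply, ChamB_none_succ, Pi.zero_apply, smul_eq_mul,
          RingHom.id_apply]
        ring
    | some k =>
      simp only [Pi.sub_apply, Pi.smul_apply, ChamB_some, Pi.zero_apply, smul_eq_mul,
        RingHom.id_apply]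
      ring

private theorem ChamB_lin_apply (c : Option (Fin (n + 1))) (x : Fin (n + 1) → ℝ) :
    ChamB_lin c x = sig c x - sig c 0 := rfl

private theorem ChamB_sig_eq (c : Option (Fin (n + 1))) (x : Fin (n + 1) → ℝ) :
    sig c x = ChamB_lin c x + sig c 0 := by
  rw [ChamB_lin_apply]
  abel

private theorem ChamB_lin_lin (c : Option (Fin (n + 1))) :
    (ChamB_lin c).comp (ChamB_lin c) = LinearMap.id := by
  refine LinearMap.ext fun x => ?_
  have h0 : ChamB_lin c (sig c 0) + sig c 0 = 0 := by
    rw [← ChamB_sig_eq, sig_sig]
  have h1 : ChamB_lin c (ChamB_lin c x + sig c 0) + sig c 0 = x := by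
    rw [← ChamB_sig_eq c x, ← ChamB_sig_eq, sig_sig]
  rw [map_add, add_assoc, h0, add_zero] at h1
  exact h1

theorem sig_mp (c : Option (Fin (n + 1))) : MeasurePreserving (sig (n := n) c) volume volume := by
  have hdet : LinearMap.det (ChamB_lin (n := n) c) * LinearMap.det (ChamB_lin (n := n) c) = 1 := by
    rw [← LinearMap.det_comp, ChamB_lin_lin, LinearMap.det_id]
  have hne : LinearMap.det (ChamB_lin (n := n) c) ≠ 0 := by
    intro h
    rw [h, zero_mul] at hdet
    exact zero_ne_one hdet
  have habs : |(LinearMap.det (ChamB_lin (n := n) c))⁻¹| = 1 := by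
    rcases mul_self_eq_one_iff.mp hdet with h | h
    · rw [h, inv_one, abs_one]
    · rw [h]
      norm_num
  have hmap := Real.map_linearMap_volume_pi_eq_smul_volume_pi hne
  rw [habs, ENNReal.ofReal_one, one_smul] at hmap
  have hcont : Continuous (ChamB_lin (n := n) c) := LinearMap.continuous_of_finiteDimensional _
  have hA : MeasurePreserving (ChamB_lin (n := n) c) volume volume := ⟨hcont.measurable, hmap⟩
  have hB := (measurePreserving_add_right (volume : Measure (Fin (n + 1) → ℝ)) (sig c 0)).comp hA
  have he : sig (n := n) c = (fun x => x + sig c 0) ∘ (ChamB_lin (n := n) c) := by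
    funext x
    exact ChamB_sig_eq c x
  rw [he]
  exact hB

theorem QQ_sig (c : Option (Fin (n + 1))) (x : Fin (n + 1) → ℝ) : QQ (sig c x) = QQ x := by
  unfold QQ
  cases c with
  | none =>
    rw [ChamB_sum_none, Fin.sum_univ_succ]
    simp only [ChamB_none_zero, ChamB_none_succ]
    rw [Fin.sum_univ_succ (fun i => x i ^ 2)]
    ring
  | some k =>
    rw [ChamB_sum_some]
    simp only [ChamB_some]
    rw [Equiv.sum_comp (Equiv.swap 0 k) (fun i => x i ^ 2)]

theorem sig_ctr (c : Option (Fin (n + 1))) : sig c (ctr (n + 1)) = ctr (n + 1) := by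
  funext i
  cases c with
  | none =>
    refine Fin.cases ?_ (fun j => ?_) i
    · rw [ChamB_none_zero]
      simp only [ctr, Finset.sum_const, Finset.card_univ, Fintype.card_fin, nsmul_eq_mul]
      have h : ((n : ℝ) + 1 + 1) ≠ 0 := by positivity
      push_cast
      field_simp
      ring
    · rw [ChamB_none_succ]
  | some k => rfl

/-- `sig c` is affine -/
theorem sig_affine (c : Option (Fin (n + 1))) (x y : Fin (n + 1) → ℝ) (t : ℝ) :
    sig c ((1 - t) • x + t • y) = (1 - t) • sig c x + t • sig c y := by
  rw [ChamB_sig_eq c ((1 - t) • x + t • y), ChamB_sig_eq c x, ChamB_sig_eq c y, map_add, map_smul,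
    map_smul]
  module

private theorem ChamB_hyper (L : (Fin (n + 1) → ℝ) →ₗ[ℝ] ℝ) (v : Fin (n + 1) → ℝ) (hv : L v ≠ 0)
    (a : ℝ) : volume {x | L x = a} = 0 := by
  have hker : LinearMap.ker L ≠ ⊤ := by
    intro h
    have : v ∈ LinearMap.ker L := by rw [h]; trivial
    exact hv this
  have h0 : volume (LinearMap.ker L : Set (Fin (n + 1) → ℝ)) = 0 :=
    Measure.addHaar_submodule volume _ hker
  have hset : {x | L x = a} = (fun x => x + (-(a / L v)) • v) ⁻¹'
      (LinearMap.ker L : Set (Fin (n + 1) → ℝ)) := by
    ext x
    simp only [mem_ofPred_eq, mem_preimage, SetLike.mem_coe, LinearMap.mem_ker, map_add, map_smul,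
      smul_eq_mul, neg_mul, div_mul_cancel₀ a hv]
    constructor <;> intro h <;> linarith
  rw [hset, measure_preimage_add_right, h0]

private theorem ChamB_null {c d : Option (Fin (n + 1))} (hcd : c ≠ d) :
    volume {x : Fin (n + 1) → ℝ | sig c x 0 = sig d x 0} = 0 := by
  have key : ∀ k : Fin (n + 1),
      volume {x : Fin (n + 1) → ℝ | sig none x 0 = sig (some k) x 0} = 0 := by
    intro k
    have h := ChamB_hyper (∑ i, LinearMap.proj i + LinearMap.proj (R := ℝ) (φ := fun _ => ℝ) k)
      (Pi.single k 1) (by
        simp only [LinearMap.add_apply, LinearMap.sum_apply, LinearMap.proj_apply,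
          Finset.sum_pi_single', Finset.mem_univ, if_true, Pi.single_eq_same]
        norm_num) (1 : ℝ)
    refine measure_mono_null (fun x hx => ?_) h
    rw [mem_ofPred_eq, ChamB_none_zero, ChamB_some_zero] at hx
    simp only [mem_ofPred_eq, LinearMap.add_apply, LinearMap.sum_apply, LinearMap.proj_apply]
    linarith
  cases c with
  | none =>
    cases d with
    | none => exact absurd rfl hcd
    | some k => exact key k
  | some k =>
    cases d with
    | none =>
      refine measure_mono_null (fun x hx => ?_) (key k)
      exact Eq.symm hx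
    | some l =>
      have hkl : k ≠ l := fun h => hcd (by rw [h])
      have h := ChamB_hyper (LinearMap.proj (R := ℝ) (φ := fun _ => ℝ) k - LinearMap.proj l)
        (Pi.single k 1) (by
          simp only [LinearMap.sub_apply, LinearMap.proj_apply, Pi.single_eq_same,
            Pi.single_eq_of_ne hkl.symm]
          norm_num) (0 : ℝ)
      refine measure_mono_null (fun x hx => ?_) h
      rw [mem_ofPred_eq, ChamB_some_zero, ChamB_some_zero] at hx
      simp only [mem_ofPred_eq, LinearMap.sub_apply, LinearMap.proj_apply]
      linarith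

private theorem ChamB_iff (c : Option (Fin (n + 1))) (x : Fin (n + 1) → ℝ) :
    sig c x ∈ chamber n ↔ x ∈ stdS (n + 1) ∧ ∀ d, sig c x 0 ≤ sig d x 0 := by
  constructor
  · rintro ⟨h1, h2, h3⟩
    refine ⟨?_, fun d => ?_⟩
    · have := sig_mem (c := c) h1
      rwa [sig_sig] at this
    · cases c with
      | none =>
        rw [ChamB_sum_none] at h3
        cases d with
        | none => exact le_refl _
        | some k =>
          rw [ChamB_some_zero]
          refine Fin.cases ?_ (fun j => ?_) k
          · linarith
          · exact h2 j.succ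
      | some k =>
        rw [ChamB_sum_some] at h3
        cases d with
        | none => exact h3
        | some l =>
          have := h2 (Equiv.swap 0 k l)
          rw [ChamB_some k x (Equiv.swap 0 k l), Equiv.swap_apply_self] at this
          rw [ChamB_some_zero l]
          exact this
  · rintro ⟨h1, h2⟩
    refine ⟨sig_mem h1, fun j => ?_, ?_⟩
    · cases c with
      | none =>
        refine Fin.cases ?_ (fun i => ?_) j
        · exact le_refl _
        · have := h2 (some i.succ)
          rw [ChamB_some_zero] at this
          exact this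
      | some k =>
        have := h2 (some (Equiv.swap 0 k j))
        rw [ChamB_some_zero (Equiv.swap 0 k j)] at this
        exact this
    · cases c with
      | none =>
        rw [ChamB_sum_none]
        have := h2 (some 0)
        rw [ChamB_some_zero 0] at this
        linarith
      | some k =>
        rw [ChamB_sum_some]
        exact h2 none

private theorem ChamB_cont (c : Option (Fin (n + 1))) : Continuous (sig (n := n) c) := by
  have hcont : Continuous (ChamB_lin (n := n) c) := LinearMap.continuous_of_finiteDimensional _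
  have he : sig (n := n) c = fun x => ChamB_lin (n := n) c x + sig c 0 := by
    funext x
    exact ChamB_sig_eq c x
  rw [he]
  exact hcont.add continuous_const

private theorem ChamB_emb (c : Option (Fin (n + 1))) : MeasurableEmbedding (sig (n := n) c) := by
  let e : (Fin (n + 1) → ℝ) ≃ᵐ (Fin (n + 1) → ℝ) :=
    { toFun := sig c
      invFun := sig c
      left_inv := sig_sig c
      right_inv := sig_sig c
      measurable_toFun := (ChamB_cont c).measurable
      measurable_invFun := (ChamB_cont c).measurable }
  exact e.measurableEmbedding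

private theorem ChamB_closed : IsClosed (chamber n) := by
  have h0 : IsClosed (stdS (n + 1)) := (stdS_compact (n + 1)).isClosed
  have h : chamber n = stdS (n + 1) ∩ ((⋂ j, {x : Fin (n + 1) → ℝ | x 0 ≤ x j}) ∩
      {x : Fin (n + 1) → ℝ | x 0 ≤ 1 - ∑ i, x i}) := by
    ext x
    simp only [chamber, mem_ofPred_eq, mem_inter_iff, mem_iInter]
  rw [h]
  refine h0.inter (IsClosed.inter (isClosed_iInter fun j => ?_) ?_)
  · exact isClosed_le (continuous_apply 0) (continuous_apply j)
  · exact isClosed_le (continuous_apply 0) (by fun_prop)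

private theorem ChamB_cover : (⋃ c : Option (Fin (n + 1)), sig c ⁻¹' chamber n) = stdS (n + 1) := by
  ext x
  simp only [mem_iUnion, mem_preimage, ChamB_iff]
  constructor
  · rintro ⟨c, h, -⟩
    exact h
  · intro h
    obtain ⟨c, hc⟩ := Finite.exists_min (fun c : Option (Fin (n + 1)) => sig c x 0)
    exact ⟨c, h, hc⟩

theorem stdS_chambers {F : (Fin (n + 1) → ℝ) → ℝ} (hF : IntegrableOn F (stdS (n + 1))) :
    ∫ x in stdS (n + 1), F x =
      ∑ c : Option (Fin (n + 1)), ∫ x in chamber n, F (sig c x) := by
  have hmeas : ∀ c : Option (Fin (n + 1)), MeasurableSet (sig (n := n) c ⁻¹' chamber n) := fun c =>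
    (ChamB_cont c).measurable ChamB_closed.measurableSet
  have hdisj : Pairwise (Function.onFun (AEDisjoint volume)
      (fun c : Option (Fin (n + 1)) => sig (n := n) c ⁻¹' chamber n)) := by
    intro c d hcd
    refine measure_mono_null (fun x hx => ?_) (ChamB_null hcd)
    have h1 := ((ChamB_iff c x).mp hx.1).2 d
    have h2 := ((ChamB_iff d x).mp hx.2).2 c
    exact le_antisymm h1 h2
  have h1 : ∫ x in stdS (n + 1), F x =
      ∑' c : Option (Fin (n + 1)), ∫ x in sig c ⁻¹' chamber n, F x := by
    rw [← ChamB_cover]
    refine integral_iUnion_ae (fun c => (hmeas c).nullMeasurableSet) hdisj ?_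
    rw [ChamB_cover]
    exact hF
  rw [h1, tsum_fintype]
  refine Finset.sum_congr rfl fun c _ => ?_
  have h2 := (sig_mp (n := n) c).setIntegral_preimage_emb (ChamB_emb c)
    (fun x => F (sig c x)) (chamber n)
  rw [← h2]
  refine setIntegral_congr_fun (hmeas c) fun x _ => ?_
  simp only [sig_sig]

end Vale.Agent.P254U
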