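import Vale.Agent.Lib.P254U.LM.ChamA
import Vale.Agent.Lib.P254U.LM.ChamB
import Vale.Agent.Lib.P254U.LM.CIa
import Vale.Agent.Lib.P254U.LM.CIsub

/-!
P254U/LM/CIb: the convexity inequality on the standard simplex.

`CI n` : `0 ≤ ∫_(stdS n) h ((n+2) QQ - 2)` for convex `h`.
`CIs n` : `2/((n+1)(n+3)) ∫ h ≤ ∫ h ((n+2) QQ - 2)` if moreover `h ≥ 0` and `h (ctr n) = 0`.

`CI_zero`: `stdS 0` is a point, `QQ = 1`.
`CI_step`: in a chamber (`chamber_integral`, `QQ_ray`), with `ψ' (y) = (n+2) QQ y - 2`: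
`(n+3) QQ (ray τ y) - 2 = (n+3)/(n+2) τ² ψ'(y) + (n+3)/(n+2) τ² - (n+1)/(n+2)`.
For fixed `τ` the function `y ↦ h (ray τ y)` is convex, so `CI n` gives
`∫_y h (ray τ y) ψ'(y) ≥ 0`; `H τ = ∫_(stdS n) h (ray τ y) dy` is convex, `≥ 0`, `H 0 = 0`;
`radial_ineq`.  Sum over the chambers by `stdS_chambers` (`h ∘ sig c` is again convex, nonnegative,
zero at the centroid).
`CI_of_CIs`: subtract a supporting affine function `ℓ` of `h` at `ctr n` (`exists_subgradient`); `∫ ℓ ((n+2) QQ - 2) = 0` (`CI_affine`).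
-/

open MeasureTheory Set

namespace Vale.Agent.P254U

def CI (n : ℕ) : Prop :=
  ∀ h : (Fin n → ℝ) → ℝ, ConvexOn ℝ univ h →
    0 ≤ ∫ x in stdS n, h x * (((n : ℝ) + 2) * QQ x - 2)

def CIs (n : ℕ) : Prop :=
  ∀ h : (Fin n → ℝ) → ℝ, ConvexOn ℝ univ h → (∀ x, 0 ≤ h x) → h (ctr n) = 0 →
    2 / (((n : ℝ) + 1) * ((n : ℝ) + 3)) * ∫ x in stdS n, h x ≤
      ∫ x in stdS n, h x * (((n : ℝ) + 2) * QQ x - 2)

theorem CIb_cont {n : ℕ} {h : (Fin n → ℝ) → ℝ} (hc : ConvexOn ℝ univ h) : Continuous h :=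
  hc.locallyLipschitz.continuous

theorem CIb_QQ_cont (n : ℕ) : Continuous (QQ : (Fin n → ℝ) → ℝ) := by
  unfold QQ
  fun_prop

theorem CIb_ray_cont (n : ℕ) :
    Continuous (fun p : ℝ × (Fin n → ℝ) => ray p.1 p.2) := by
  refine continuous_pi fun i => ?_
  refine Fin.cases ?_ (fun j => ?_) i
  · simp only [ray, Fin.cons_zero]
    fun_prop
  · simp only [ray, Fin.cons_succ]
    fun_prop

theorem CIb_ray_left {n : ℕ} (y : Fin n → ℝ) (s t a b : ℝ) (hab : a + b = 1) :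
    ray (a * s + b * t) y = a • ray s y + b • ray t y := by
  rw [ray_eq, ray_eq, ray_eq]
  have hb : b = 1 - a := by linarith
  subst hb
  module

theorem CIb_ray_right {n : ℕ} (τ : ℝ) (x y : Fin n → ℝ) (a b : ℝ) (hab : a + b = 1) :
    ray τ (a • x + b • y) = a • ray τ x + b • ray τ y := by
  have h0 : (Fin.cons 0 (a • x + b • y) : Fin (n + 1) → ℝ) =
      a • (Fin.cons 0 x : Fin (n + 1) → ℝ) + b • (Fin.cons 0 y : Fin (n + 1) → ℝ) := by
    funext i
    refine Fin.cases ?_ (fun j => ?_) i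
    · simp
    · simp
  rw [ray_eq, ray_eq, ray_eq, h0]
  have hb : b = 1 - a := by linarith
  subst hb
  module

theorem CIb_ray_zero {n : ℕ} (y : Fin n → ℝ) : ray 0 y = ctr (n + 1) := by
  rw [ray_eq, zero_smul, add_zero]

theorem CIb_convex_ray_left {n : ℕ} {g : (Fin (n + 1) → ℝ) → ℝ} (hg : ConvexOn ℝ univ g)
    (y : Fin n → ℝ) {s t a b : ℝ} (ha : 0 ≤ a) (hb : 0 ≤ b) (hab : a + b = 1) :
    g (ray (a * s + b * t) y) ≤ a * g (ray s y) + b * g (ray t y) := by
  rw [CIb_ray_left y s t a b hab]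
  exact hg.2 (mem_univ _) (mem_univ _) ha hb hab

theorem CIb_convex_ray_right {n : ℕ} {g : (Fin (n + 1) → ℝ) → ℝ} (hg : ConvexOn ℝ univ g)
    (τ : ℝ) : ConvexOn ℝ univ (fun y : Fin n → ℝ => g (ray τ y)) := by
  refine ⟨convex_univ, ?_⟩
  intro x _ y _ a b ha hb hab
  show g (ray τ (a • x + b • y)) ≤ a • g (ray τ x) + b • g (ray τ y)
  rw [CIb_ray_right τ x y a b hab]
  exact hg.2 (mem_univ _) (mem_univ _) ha hb hab

theorem CIb_convex_sig {n : ℕ} {g : (Fin (n + 1) → ℝ) → ℝ} (hg : ConvexOn ℝ univ g)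
    (c : Option (Fin (n + 1))) : ConvexOn ℝ univ (fun x => g (sig c x)) := by
  refine ⟨convex_univ, ?_⟩
  intro x _ y _ a b ha hb hab
  show g (sig c (a • x + b • y)) ≤ a • g (sig c x) + b • g (sig c y)
  have ha' : a = 1 - b := by linarith
  subst ha'
  rw [sig_affine c x y b]
  exact hg.2 (mem_univ _) (mem_univ _) ha hb hab

theorem CI_zero : CI 0 := by
  intro h _
  have h1 : ∀ x : Fin 0 → ℝ, h x * (((0 : ℕ) : ℝ) + 2) * QQ x - 2 * h x = 0 := by
    intro x
    simp only [QQ, Finset.univ_eq_empty, Finset.sum_empty]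
    push_cast
    ring
  have h2 : ∀ x : Fin 0 → ℝ, h x * ((((0 : ℕ) : ℝ) + 2) * QQ x - 2) = 0 := by
    intro x
    have := h1 x
    linarith
  simp only [h2, MeasureTheory.integral_zero, le_refl]

/-- the inequality on one chamber -/
theorem CIb_chamber (n : ℕ) (h : CI n) {g : (Fin (n + 1) → ℝ) → ℝ} (hg : ConvexOn ℝ univ g)
    (hg0 : ∀ x, 0 ≤ g x) (hgc : g (ctr (n + 1)) = 0) :
    0 ≤ ∫ x in chamber n, g x * (((n : ℝ) + 3) * QQ x - 2 -
      2 / (((n : ℝ) + 2) * ((n : ℝ) + 4))) := by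
  have hgcont := CIb_cont hg
  have hQ1 := CIb_QQ_cont (n + 1)
  have hQ := CIb_QQ_cont n
  have hn2 : (0 : ℝ) < (n : ℝ) + 2 := by positivity
  have hn4 : (0 : ℝ) < (n : ℝ) + 4 := by positivity
  set F : (Fin (n + 1) → ℝ) → ℝ := fun x => g x * (((n : ℝ) + 3) * QQ x - 2 -
      2 / (((n : ℝ) + 2) * ((n : ℝ) + 4))) with hFdef
  have hFc : Continuous F := by
    rw [hFdef]
    fun_prop
  have hFi : IntegrableOn F (stdS (n + 1)) := hFc.continuousOn.integrableOn_compact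
    (stdS_compact (n + 1))
  rw [chamber_integral hFi]
  set H : ℝ → ℝ := fun τ => ∫ y in stdS n, g (ray τ y) with hHdef
  have hgray : Continuous (fun p : ℝ × (Fin n → ℝ) => g (ray p.1 p.2)) :=
    hgcont.comp (CIb_ray_cont n)
  have hHc : Continuous H := by
    rw [hHdef]
    exact continuous_parametric_integral_of_continuous (f := fun τ y => g (ray τ y)) hgray
      (stdS_compact n)
  have hgrayτ : ∀ τ : ℝ, Continuous (fun y : Fin n → ℝ => g (ray τ y)) := by
    intro τ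
    exact hgray.comp (Continuous.prodMk_right τ)
  have hint : ∀ τ : ℝ, IntegrableOn (fun y : Fin n → ℝ => g (ray τ y)) (stdS n) :=
    fun τ => (hgrayτ τ).continuousOn.integrableOn_compact (stdS_compact n)
  have hHconv : ConvexOn ℝ (Icc 0 1) H := by
    refine ⟨convex_Icc 0 1, ?_⟩
    intro s _ t _ a b ha hb hab
    show ∫ y in stdS n, g (ray (a • s + b • t) y) ≤
      a • (∫ y in stdS n, g (ray s y)) + b • ∫ y in stdS n, g (ray t y)
    simp only [smul_eq_mul]
    rw [← MeasureTheory.integral_const_mul, ← MeasureTheory.integral_const_mul,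
      ← MeasureTheory.integral_add ((hint s).const_mul a) ((hint t).const_mul b)]
    refine MeasureTheory.integral_mono (hint _)
      (((hint s).const_mul a).add ((hint t).const_mul b)) ?_
    intro y
    exact CIb_convex_ray_left hg y ha hb hab
  have hHn : ∀ τ ∈ Icc (0 : ℝ) 1, 0 ≤ H τ := by
    intro τ _
    exact MeasureTheory.integral_nonneg fun y => hg0 _
  have hH0 : H 0 = 0 := by
    show ∫ y in stdS n, g (ray 0 y) = 0
    have : ∀ y : Fin n → ℝ, g (ray 0 y) = 0 := by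
      intro y
      rw [CIb_ray_zero, hgc]
    simp only [this, MeasureTheory.integral_zero]
  have hrad := radial_ineq n hHconv hHn hH0 (hHc.intervalIntegrable 0 1)
  have hinner : ∀ τ : ℝ,
      H τ * (((n : ℝ) + 3) / ((n : ℝ) + 2) * τ ^ 2 -
        ((n : ℝ) + 1) / ((n : ℝ) + 2) - 2 / (((n : ℝ) + 2) * ((n : ℝ) + 4))) ≤
      ∫ y in stdS n, F (ray τ y) := by
    intro τ
    have hci := h (fun y => g (ray τ y)) (CIb_convex_ray_right hg τ)
    have hpt : ∀ y : Fin n → ℝ, F (ray τ y) =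
        ((n : ℝ) + 3) / ((n : ℝ) + 2) * τ ^ 2 * (g (ray τ y) * (((n : ℝ) + 2) * QQ y - 2)) +
        (((n : ℝ) + 3) / ((n : ℝ) + 2) * τ ^ 2 -
        ((n : ℝ) + 1) / ((n : ℝ) + 2) - 2 / (((n : ℝ) + 2) * ((n : ℝ) + 4))) * g (ray τ y) := by
      intro y
      show g (ray τ y) * (((n : ℝ) + 3) * QQ (ray τ y) - 2 -
        2 / (((n : ℝ) + 2) * ((n : ℝ) + 4))) = _
      rw [QQ_ray]
      field_simp
      ring
    have hi1 : IntegrableOn (fun y : Fin n → ℝ => g (ray τ y) * (((n : ℝ) + 2) * QQ y - 2))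
        (stdS n) := by
      have hc1 : Continuous (fun y : Fin n → ℝ => g (ray τ y) * (((n : ℝ) + 2) * QQ y - 2)) :=
        (hgrayτ τ).mul ((continuous_const.mul hQ).sub continuous_const)
      exact hc1.continuousOn.integrableOn_compact (stdS_compact n)
    have heq : ∫ y in stdS n, F (ray τ y) =
        ((n : ℝ) + 3) / ((n : ℝ) + 2) * τ ^ 2 *
          (∫ y in stdS n, g (ray τ y) * (((n : ℝ) + 2) * QQ y - 2)) +
        (((n : ℝ) + 3) / ((n : ℝ) + 2) * τ ^ 2 -
        ((n : ℝ) + 1) / ((n : ℝ) + 2) - 2 / (((n : ℝ) + 2) * ((n : ℝ) + 4))) * H τ := by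
      simp only [hpt]
      rw [MeasureTheory.integral_add (hi1.const_mul _) ((hint τ).const_mul _),
        MeasureTheory.integral_const_mul, MeasureTheory.integral_const_mul]
    rw [heq]
    have hpos : 0 ≤ ((n : ℝ) + 3) / ((n : ℝ) + 2) * τ ^ 2 *
          (∫ y in stdS n, g (ray τ y) * (((n : ℝ) + 2) * QQ y - 2)) :=
      mul_nonneg (by positivity) hci
    linarith [mul_comm (H τ) (((n : ℝ) + 3) / ((n : ℝ) + 2) * τ ^ 2 -
        ((n : ℝ) + 1) / ((n : ℝ) + 2) - 2 / (((n : ℝ) + 2) * ((n : ℝ) + 4)))]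
  have hlow : ∫ τ in (0 : ℝ)..1, 1 / ((n : ℝ) + 2) * (τ ^ n *
      (H τ * (((n : ℝ) + 3) / ((n : ℝ) + 2) * τ ^ 2 -
        ((n : ℝ) + 1) / ((n : ℝ) + 2) - 2 / (((n : ℝ) + 2) * ((n : ℝ) + 4))))) ≤
      ∫ τ in (0 : ℝ)..1, τ ^ n / ((n : ℝ) + 2) * ∫ y in stdS n, F (ray τ y) := by
    refine intervalIntegral.integral_mono_on zero_le_one ?_ (chamber_integrable hFi) ?_
    · refine Continuous.intervalIntegrable ?_ 0 1
      fun_prop
    · intro τ hτ
      have h1 : (0 : ℝ) ≤ τ ^ n / ((n : ℝ) + 2) := div_nonneg (pow_nonneg hτ.1 n) hn2.le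
      have h2 := mul_le_mul_of_nonneg_left (hinner τ) h1
      refine le_trans (le_of_eq ?_) h2
      ring
  refine le_trans ?_ hlow
  rw [intervalIntegral.integral_const_mul]
  exact mul_nonneg (by positivity) hrad

theorem CI_step (n : ℕ) (h : CI n) : CIs (n + 1) := by
  intro g hg hg0 hgc
  have hgcont := CIb_cont hg
  have hQ1 := CIb_QQ_cont (n + 1)
  set F : (Fin (n + 1) → ℝ) → ℝ := fun x => g x * (((n : ℝ) + 3) * QQ x - 2 -
      2 / (((n : ℝ) + 2) * ((n : ℝ) + 4))) with hFdef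
  have hFc : Continuous F := by
    rw [hFdef]
    fun_prop
  have hFi : IntegrableOn F (stdS (n + 1)) := hFc.continuousOn.integrableOn_compact
    (stdS_compact (n + 1))
  have hF0 : 0 ≤ ∫ x in stdS (n + 1), F x := by
    rw [stdS_chambers hFi]
    refine Finset.sum_nonneg fun c _ => ?_
    have h1 := CIb_chamber n h (CIb_convex_sig hg c) (fun x => hg0 _)
      (by show g (sig c (ctr (n + 1))) = 0; rw [sig_ctr, hgc])
    have h2 : ∀ x, F (sig c x) = g (sig c x) * (((n : ℝ) + 3) * QQ x - 2 -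
      2 / (((n : ℝ) + 2) * ((n : ℝ) + 4))) := by
      intro x
      show g (sig c x) * (((n : ℝ) + 3) * QQ (sig c x) - 2 -
        2 / (((n : ℝ) + 2) * ((n : ℝ) + 4))) = _
      rw [QQ_sig]
    simp only [h2]
    exact h1
  have hgi : IntegrableOn g (stdS (n + 1)) := hgcont.continuousOn.integrableOn_compact
    (stdS_compact (n + 1))
  have hci : IntegrableOn (fun x => g x * ((((n + 1 : ℕ) : ℝ) + 2) * QQ x - 2))
      (stdS (n + 1)) := by
    have hc1 : Continuous (fun x => g x * ((((n + 1 : ℕ) : ℝ) + 2) * QQ x - 2)) := by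
      fun_prop
    exact hc1.continuousOn.integrableOn_compact (stdS_compact (n + 1))
  have heq : ∫ x in stdS (n + 1), F x =
      (∫ x in stdS (n + 1), g x * ((((n + 1 : ℕ) : ℝ) + 2) * QQ x - 2)) -
      2 / ((((n + 1 : ℕ) : ℝ) + 1) * (((n + 1 : ℕ) : ℝ) + 3)) * ∫ x in stdS (n + 1), g x := by
    rw [← MeasureTheory.integral_const_mul,
      ← MeasureTheory.integral_sub hci (hgi.const_mul _)]
    refine MeasureTheory.integral_congr_ae (Filter.Eventually.of_forall fun x => ?_)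
    show g x * (((n : ℝ) + 3) * QQ x - 2 - 2 / (((n : ℝ) + 2) * ((n : ℝ) + 4))) =
      g x * ((((n + 1 : ℕ) : ℝ) + 2) * QQ x - 2) -
      2 / ((((n + 1 : ℕ) : ℝ) + 1) * (((n + 1 : ℕ) : ℝ) + 3)) * g x
    have e1 : (((n + 1 : ℕ) : ℝ) + 1) = (n : ℝ) + 2 := by push_cast; ring
    have e2 : (((n + 1 : ℕ) : ℝ) + 3) = (n : ℝ) + 4 := by push_cast; ring
    have e3 : (((n + 1 : ℕ) : ℝ) + 2) = (n : ℝ) + 3 := by push_cast; ring
    rw [e1, e2, e3]
    ring
  linarith

theorem CI_of_CIs (n : ℕ) (h : CIs n) : CI n := by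
  intro f hf
  obtain ⟨a, ha⟩ := exists_subgradient hf (ctr n)
  have hfc := CIb_cont hf
  have hQ := CIb_QQ_cont n
  set b : ℝ := f (ctr n) - ∑ i, a i * ctr n i with hb
  set ℓ : (Fin n → ℝ) → ℝ := fun x => b + ∑ i, a i * x i with hℓ
  have hℓc : Continuous ℓ := by
    rw [hℓ]
    fun_prop
  have hℓle : ∀ x, ℓ x ≤ f x := by
    intro x
    refine le_trans (le_of_eq ?_) (ha x)
    show b + ∑ i, a i * x i = _
    rw [hb]
    simp only [mul_sub, Finset.sum_sub_distrib]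
    ring
  have hg : ConvexOn ℝ univ (fun x => f x - ℓ x) := by
    refine ⟨convex_univ, ?_⟩
    intro x _ y _ s t hs ht hst
    have h1 : f (s • x + t • y) ≤ s * f x + t * f y := hf.2 (mem_univ _) (mem_univ _) hs ht hst
    have h2 : ℓ (s • x + t • y) = s * ℓ x + t * ℓ y := by
      show b + ∑ i, a i * (s • x + t • y) i = s * (b + ∑ i, a i * x i) + t * (b + ∑ i, a i * y i)
      have h3 : ∑ i, a i * (s • x + t • y) i = s * ∑ i, a i * x i + t * ∑ i, a i * y i := by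
        rw [Finset.mul_sum, Finset.mul_sum, ← Finset.sum_add_distrib]
        refine Finset.sum_congr rfl fun i _ => ?_
        simp only [Pi.add_apply, Pi.smul_apply, smul_eq_mul]
        ring
      rw [h3]
      have h4 : b = (s + t) * b := by rw [hst, one_mul]
      calc b + (s * ∑ i, a i * x i + t * ∑ i, a i * y i) =
          (s + t) * b + (s * ∑ i, a i * x i + t * ∑ i, a i * y i) := by rw [← h4]
        _ = _ := by ring
    show f (s • x + t • y) - ℓ (s • x + t • y) ≤ s * (f x - ℓ x) + t * (f y - ℓ y)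
    rw [h2]
    linarith
  have hgc : f (ctr n) - ℓ (ctr n) = 0 := by
    show f (ctr n) - (b + ∑ i, a i * ctr n i) = 0
    rw [hb]
    ring
  have hmain := h (fun x => f x - ℓ x) hg (fun x => sub_nonneg.2 (hℓle x)) hgc
  have hnn : 0 ≤ 2 / (((n : ℝ) + 1) * ((n : ℝ) + 3)) * ∫ x in stdS n, (f x - ℓ x) := by
    refine mul_nonneg (by positivity) ?_
    exact MeasureTheory.integral_nonneg fun x => sub_nonneg.2 (hℓle x)
  have hi1 : IntegrableOn (fun x => (f x - ℓ x) * (((n : ℝ) + 2) * QQ x - 2)) (stdS n) := by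
    have hc1 : Continuous (fun x => (f x - ℓ x) * (((n : ℝ) + 2) * QQ x - 2)) := by
      fun_prop
    exact hc1.continuousOn.integrableOn_compact (stdS_compact n)
  have hi2 : IntegrableOn (fun x => ℓ x * (((n : ℝ) + 2) * QQ x - 2)) (stdS n) := by
    have hc1 : Continuous (fun x => ℓ x * (((n : ℝ) + 2) * QQ x - 2)) := by
      fun_prop
    exact hc1.continuousOn.integrableOn_compact (stdS_compact n)
  have haff : ∫ x in stdS n, ℓ x * (((n : ℝ) + 2) * QQ x - 2) = 0 := CI_affine n a b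
  have hsum : ∫ x in stdS n, f x * (((n : ℝ) + 2) * QQ x - 2) =
      (∫ x in stdS n, (f x - ℓ x) * (((n : ℝ) + 2) * QQ x - 2)) +
        ∫ x in stdS n, ℓ x * (((n : ℝ) + 2) * QQ x - 2) := by
    rw [← MeasureTheory.integral_add hi1 hi2]
    refine MeasureTheory.integral_congr_ae (Filter.Eventually.of_forall fun x => ?_)
    show f x * (((n : ℝ) + 2) * QQ x - 2) = (f x - ℓ x) * (((n : ℝ) + 2) * QQ x - 2) +
      ℓ x * (((n : ℝ) + 2) * QQ x - 2)
    ring
  rw [hsum, haff, add_zero]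
  exact le_trans hnn hmain

theorem CIs_all (n : ℕ) : CIs (n + 1) := by
  induction n with
  | zero => exact CI_step 0 CI_zero
  | succ n ih => exact CI_step (n + 1) (CI_of_CIs (n + 1) ih)

end Vale.Agent.P254U
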