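import Vale.Agent.Lib.P254U.LM.Defs

/-!
P254U/LM/ChamA: decomposition of the standard simplex into cones over its facets.

`chamber_integral`: `x 0 = t` runs over `[0, 1/(n+2)]`, `t = (1-τ)/(n+2)`; for fixed `t` the slice of
the chamber is `{τ y + (1-τ)/(n+2) : y ∈ stdS n}`; Fubini and the substitutions (`dt = dτ/(n+2)`,
`dx' = τ^n dy`).
-/

open MeasureTheory Set

namespace Vale.Agent.P254U

variable {n : ℕ}

theorem ray_eq (τ : ℝ) (y : Fin n → ℝ) :
    ray τ y = ctr (n + 1) + τ • ((Fin.cons 0 y : Fin (n + 1) → ℝ) - ctr (n + 1)) := by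
  funext i
  have h2 : ((n + 1 : ℕ) : ℝ) + 1 = (n : ℝ) + 2 := by push_cast; ring
  have h3 : (n : ℝ) + 2 ≠ 0 := by positivity
  refine Fin.cases ?_ (fun j => ?_) i
  · simp only [ray, ctr, Fin.cons_zero, Pi.add_apply, Pi.smul_apply, Pi.sub_apply, smul_eq_mul, h2]
    field_simp
    ring
  · simp only [ray, ctr, Fin.cons_succ, Pi.add_apply, Pi.smul_apply, Pi.sub_apply, smul_eq_mul, h2]
    field_simp
    ring

private theorem chamA_sum (τ : ℝ) (y : Fin n → ℝ) :
    1 - ∑ i, ray τ y i = τ * (1 - ∑ j, y j) + (1 - τ) / ((n : ℝ) + 2) := by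
  have h3 : (n : ℝ) + 2 ≠ 0 := by positivity
  rw [Fin.sum_univ_succ]
  simp only [ray, Fin.cons_zero, Fin.cons_succ]
  rw [Finset.sum_add_distrib, ← Finset.mul_sum, Finset.sum_const, Finset.card_univ,
    Fintype.card_fin, nsmul_eq_mul]
  field_simp
  ring

theorem QQ_ray (τ : ℝ) (y : Fin n → ℝ) :
    QQ (ray τ y) = 1 / ((n : ℝ) + 2) + τ ^ 2 * (QQ y - 1 / ((n : ℝ) + 2)) := by
  have h3 : (n : ℝ) + 2 ≠ 0 := by positivity
  unfold QQ
  rw [chamA_sum, Fin.sum_univ_succ]
  simp only [ray, Fin.cons_zero, Fin.cons_succ]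
  have h4 : ∑ j, (τ * y j + (1 - τ) / ((n : ℝ) + 2)) ^ 2 =
      τ ^ 2 * ∑ j, y j ^ 2 + 2 * τ * ((1 - τ) / ((n : ℝ) + 2)) * ∑ j, y j +
        n * ((1 - τ) / ((n : ℝ) + 2)) ^ 2 := by
    have h5 : ∀ j : Fin n, (τ * y j + (1 - τ) / ((n : ℝ) + 2)) ^ 2 =
        τ ^ 2 * y j ^ 2 + 2 * τ * ((1 - τ) / ((n : ℝ) + 2)) * y j +
          ((1 - τ) / ((n : ℝ) + 2)) ^ 2 := fun j => by ring
    rw [Finset.sum_congr rfl fun j _ => h5 j, Finset.sum_add_distrib, Finset.sum_add_distrib,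
      ← Finset.mul_sum, ← Finset.mul_sum, Finset.sum_const, Finset.card_univ, Fintype.card_fin,
      nsmul_eq_mul]
  rw [h4]
  field_simp
  ring

private theorem chamA_iff {τ : ℝ} (h0 : 0 < τ) (h1 : τ ≤ 1) (y : Fin n → ℝ) :
    ray τ y ∈ chamber n ↔ y ∈ stdS n := by
  have h3 : (0 : ℝ) < (n : ℝ) + 2 := by positivity
  have hc : 0 ≤ (1 - τ) / ((n : ℝ) + 2) := div_nonneg (by linarith) h3.le
  constructor
  · rintro ⟨-, h4, h5⟩
    rw [chamA_sum] at h5
    refine ⟨fun j => ?_, ?_⟩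
    · have := h4 j.succ
      simp only [ray, Fin.cons_zero, Fin.cons_succ] at this
      have h6 : 0 ≤ τ * y j := by linarith
      exact nonneg_of_mul_nonneg_right h6 h0
    · simp only [ray, Fin.cons_zero] at h5
      have h6 : 0 ≤ τ * (1 - ∑ j, y j) := by linarith
      have := nonneg_of_mul_nonneg_right h6 h0
      linarith
  · rintro ⟨h4, h5⟩
    have h6 : 0 ≤ τ * (1 - ∑ j, y j) := mul_nonneg h0.le (by linarith)
    refine ⟨⟨fun i => ?_, ?_⟩, fun i => ?_, ?_⟩
    · refine Fin.cases ?_ (fun j => ?_) i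
      · simpa only [ray, Fin.cons_zero] using hc
      · simp only [ray, Fin.cons_succ]
        have := mul_nonneg h0.le (h4 j)
        linarith
    · have := chamA_sum τ y
      linarith
    · refine Fin.cases ?_ (fun j => ?_) i
      · exact le_rfl
      · simp only [ray, Fin.cons_zero, Fin.cons_succ]
        have := mul_nonneg h0.le (h4 j)
        linarith
    · rw [chamA_sum]
      simp only [ray, Fin.cons_zero]
      linarith

theorem ray_mem {τ : ℝ} (h0 : 0 ≤ τ) (h1 : τ ≤ 1) {y : Fin n → ℝ} (hy : y ∈ stdS n) :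
    ray τ y ∈ chamber n := by
  rcases h0.lt_or_eq with h | h
  · exact (chamA_iff h h1 y).2 hy
  · have h3 : (0 : ℝ) < (n : ℝ) + 2 := by positivity
    have hs := chamA_sum τ y
    rw [← h] at hs ⊢
    have hc : 0 ≤ (1 - (0 : ℝ)) / ((n : ℝ) + 2) := by positivity
    have hray : ∀ i, ray 0 y i = (1 - (0 : ℝ)) / ((n : ℝ) + 2) := by
      intro i
      refine Fin.cases ?_ (fun j => ?_) i
      · simp only [ray, Fin.cons_zero]
      · simp only [ray, Fin.cons_succ, zero_mul, zero_add]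
    rw [zero_mul, zero_add] at hs
    refine ⟨⟨fun i => ?_, ?_⟩, fun i => ?_, ?_⟩
    · rw [hray i]; exact hc
    · linarith
    · rw [hray 0, hray i]
    · rw [hs, hray 0]

private theorem chamA_closed (n : ℕ) : IsClosed (chamber n) := by
  have h1 : IsClosed (stdS (n + 1)) := (stdS_compact (n + 1)).isClosed
  have h2 : IsClosed {x : Fin (n + 1) → ℝ | ∀ j, x 0 ≤ x j} := by
    have : {x : Fin (n + 1) → ℝ | ∀ j, x 0 ≤ x j} = ⋂ j, {x : Fin (n + 1) → ℝ | x 0 ≤ x j} := by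
      ext x; simp
    rw [this]
    exact isClosed_iInter fun i => isClosed_le (continuous_apply 0) (continuous_apply i)
  have h3 : IsClosed {x : Fin (n + 1) → ℝ | x 0 ≤ 1 - ∑ i, x i} :=
    isClosed_le (continuous_apply 0)
      (continuous_const.sub (continuous_finsetSum _ fun i _ => continuous_apply i))
  exact h1.inter (h2.inter h3)

private theorem chamA_bound {x : Fin (n + 1) → ℝ} (hx : x ∈ chamber n) :
    0 ≤ x 0 ∧ x 0 ≤ 1 / ((n : ℝ) + 2) := by
  obtain ⟨⟨h1, h2⟩, h3, h4⟩ := hx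
  refine ⟨h1 0, ?_⟩
  have h5 : (0 : ℝ) < (n : ℝ) + 2 := by positivity
  rw [le_div_iff₀ h5]
  have h6 : ∑ _i : Fin (n + 1), x 0 ≤ ∑ i, x i := Finset.sum_le_sum fun i _ => h3 i
  rw [Finset.sum_const, Finset.card_univ, Fintype.card_fin, nsmul_eq_mul] at h6
  push_cast at h6
  linarith

private theorem chamA_cons (t : ℝ) (y : Fin n → ℝ) :
    (MeasurableEquiv.piFinSuccAbove (fun _ : Fin (n + 1) => ℝ) 0).symm (t, y) =
      (Fin.cons t y : Fin (n + 1) → ℝ) := by
  ext j
  refine Fin.cases ?_ (fun j => ?_) j <;>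
  simp [MeasurableEquiv.piFinSuccAbove, Fin.insertNthEquiv]

/-- slice integral -/
private noncomputable def chamA_g (F : (Fin (n + 1) → ℝ) → ℝ) (t : ℝ) : ℝ :=
  ∫ y : Fin n → ℝ, (chamber n).indicator F (Fin.cons t y)

private theorem chamA_int {F : (Fin (n + 1) → ℝ) → ℝ} (hF : IntegrableOn F (stdS (n + 1))) :
    Integrable (chamA_g F) ∧ ∫ x in chamber n, F x = ∫ t, chamA_g F t := by
  have hG : Integrable ((chamber n).indicator F) := by
    rw [integrable_indicator_iff (chamA_closed n).measurableSet]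
    exact hF.mono_set fun x hx => hx.1
  have hmp := (volume_preserving_piFinSuccAbove (fun _ : Fin (n + 1) => ℝ) 0).symm
  have hint2 : Integrable (fun p : ℝ × (Fin n → ℝ) =>
      (chamber n).indicator F
        ((MeasurableEquiv.piFinSuccAbove (fun _ : Fin (n + 1) => ℝ) 0).symm p)) :=
    (hmp.integrable_comp_emb (MeasurableEquiv.measurableEmbedding _)).2 hG
  have he : (fun t : ℝ => ∫ y : Fin n → ℝ, (chamber n).indicator F
      ((MeasurableEquiv.piFinSuccAbove (fun _ : Fin (n + 1) => ℝ) 0).symm (t, y))) =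
      chamA_g F := by
    funext t
    unfold chamA_g
    simp only [chamA_cons]
  constructor
  · rw [← he]
    rw [Measure.volume_eq_prod] at hint2
    exact hint2.integral_prod_left
  · rw [← integral_indicator (chamA_closed n).measurableSet,
      ← hmp.integral_comp (MeasurableEquiv.measurableEmbedding _), Measure.volume_eq_prod,
      integral_prod _ hint2]
    rw [← he]

private theorem chamA_g_zero (F : (Fin (n + 1) → ℝ) → ℝ) {t : ℝ}
    (ht : ¬ (0 ≤ t ∧ t ≤ 1 / ((n : ℝ) + 2))) : chamA_g F t = 0 := by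
  unfold chamA_g
  have h1 : ∀ y : Fin n → ℝ, (chamber n).indicator F (Fin.cons t y) = 0 := by
    intro y
    apply indicator_of_notMem
    intro h
    have := chamA_bound h
    rw [Fin.cons_zero] at this
    exact ht this
  simp only [h1, integral_zero]

private theorem chamA_g_ray (F : (Fin (n + 1) → ℝ) → ℝ) {τ : ℝ} (h0 : 0 < τ) (h1 : τ ≤ 1) :
    chamA_g F ((1 - τ) / ((n : ℝ) + 2)) = τ ^ n * ∫ y in stdS n, F (ray τ y) := by
  set c : ℝ := (1 - τ) / ((n : ℝ) + 2) with hc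
  set H : (Fin n → ℝ) → ℝ := fun y => (chamber n).indicator F (Fin.cons c y) with hH
  have hray : ∀ y : Fin n → ℝ, (Fin.cons c (τ • y + fun _ => c) : Fin (n + 1) → ℝ) = ray τ y := by
    intro y
    unfold ray
    rfl
  have h2 : ∫ y, H (τ • y + fun _ => c) = ∫ y in stdS n, F (ray τ y) := by
    rw [← integral_indicator (stdS_compact n).measurableSet]
    refine integral_congr_ae (Filter.Eventually.of_forall fun y => ?_)
    show (chamber n).indicator F (Fin.cons c (τ • y + fun _ => c)) = _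
    rw [hray y]
    by_cases hy : y ∈ stdS n
    · rw [indicator_of_mem hy, indicator_of_mem ((chamA_iff h0 h1 y).2 hy)]
    · rw [indicator_of_notMem hy,
        indicator_of_notMem (fun h => hy ((chamA_iff h0 h1 y).1 h))]
  have h3 : ∫ y, H (τ • y + fun _ => c) = |(τ ^ n)⁻¹| • ∫ y, H (y + fun _ => c) := by
    have := Measure.integral_comp_smul (volume : Measure (Fin n → ℝ))
      (fun y => H (y + fun _ => c)) τ
    rw [Module.finrank_fintype_fun_eq_card, Fintype.card_fin] at this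
    exact this
  have h4 : ∫ y, H (y + fun _ => c) = ∫ y, H y := integral_add_right_eq_self H _
  have h5 : chamA_g F c = ∫ y, H y := rfl
  have h6 : 0 < τ ^ n := pow_pos h0 n
  rw [h5, ← h2, h3, h4, abs_of_pos (inv_pos.2 h6), smul_eq_mul, mul_inv_cancel_left₀ h6.ne']

private theorem chamA_k {F : (Fin (n + 1) → ℝ) → ℝ} (hF : IntegrableOn F (stdS (n + 1))) :
    Integrable (fun τ => chamA_g F ((1 - τ) / ((n : ℝ) + 2))) ∧
      ∫ τ, chamA_g F ((1 - τ) / ((n : ℝ) + 2)) = ((n : ℝ) + 2) * ∫ t, chamA_g F t := by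
  have h3 : (0 : ℝ) < (n : ℝ) + 2 := by positivity
  have h1 := (chamA_int hF).1.comp_div h3.ne'
  refine ⟨h1.comp_sub_left 1, ?_⟩
  have h4 : ∫ τ, chamA_g F ((1 - τ) / ((n : ℝ) + 2)) = ∫ s, chamA_g F (s / ((n : ℝ) + 2)) :=
    integral_sub_left_eq_self (fun s => chamA_g F (s / ((n : ℝ) + 2))) volume 1
  rw [h4, Measure.integral_comp_div, abs_of_pos h3, smul_eq_mul]

private theorem chamA_supp (F : (Fin (n + 1) → ℝ) → ℝ) {τ : ℝ} (h : ¬ (0 ≤ τ ∧ τ ≤ 1)) :
    chamA_g F ((1 - τ) / ((n : ℝ) + 2)) = 0 := by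
  have h3 : (0 : ℝ) < (n : ℝ) + 2 := by positivity
  apply chamA_g_zero
  rintro ⟨h1, h2⟩
  apply h
  constructor
  · rw [div_le_div_iff_of_pos_right h3] at h2
    linarith
  · have := mul_nonneg h1 h3.le
    rw [div_mul_cancel₀ _ h3.ne'] at this
    linarith

theorem chamber_integral {F : (Fin (n + 1) → ℝ) → ℝ} (hF : IntegrableOn F (stdS (n + 1))) :
    ∫ x in chamber n, F x =
      ∫ τ in (0 : ℝ)..1, τ ^ n / ((n : ℝ) + 2) * ∫ y in stdS n, F (ray τ y) := by
  have h3 : (0 : ℝ) < (n : ℝ) + 2 := by positivity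
  obtain ⟨hk1, hk2⟩ := chamA_k hF
  have h4 : ∫ τ, chamA_g F ((1 - τ) / ((n : ℝ) + 2)) =
      ∫ τ in Icc (0 : ℝ) 1, chamA_g F ((1 - τ) / ((n : ℝ) + 2)) := by
    rw [← integral_indicator measurableSet_Icc]
    refine integral_congr_ae (Filter.Eventually.of_forall fun τ => ?_)
    by_cases hτ : τ ∈ Icc (0 : ℝ) 1
    · simp only [indicator_of_mem hτ]
    · simp only [indicator_of_notMem hτ]
      exact chamA_supp F hτ
  have h5 : ∫ τ in Icc (0 : ℝ) 1, chamA_g F ((1 - τ) / ((n : ℝ) + 2)) =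
      ∫ τ in Ioc (0 : ℝ) 1, τ ^ n * ∫ y in stdS n, F (ray τ y) := by
    rw [integral_Icc_eq_integral_Ioc]
    exact setIntegral_congr_fun measurableSet_Ioc fun τ hτ => chamA_g_ray F hτ.1 hτ.2
  rw [(chamA_int hF).2, intervalIntegral.integral_of_le zero_le_one]
  have h6 : ∫ t, chamA_g F t =
      1 / ((n : ℝ) + 2) * ∫ τ in Ioc (0 : ℝ) 1, τ ^ n * ∫ y in stdS n, F (ray τ y) := by
    rw [← h5, ← h4, hk2, one_div, inv_mul_cancel_left₀ h3.ne']
  rw [h6, ← integral_const_mul]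
  refine integral_congr_ae (Filter.Eventually.of_forall fun τ => ?_)
  show _ = _
  ring

theorem chamber_integrable {F : (Fin (n + 1) → ℝ) → ℝ} (hF : IntegrableOn F (stdS (n + 1))) :
    IntervalIntegrable (fun τ => τ ^ n / ((n : ℝ) + 2) * ∫ y in stdS n, F (ray τ y))
      volume 0 1 := by
  rw [intervalIntegrable_iff_integrableOn_Ioc_of_le zero_le_one]
  have h1 : IntegrableOn (fun τ => 1 / ((n : ℝ) + 2) * chamA_g F ((1 - τ) / ((n : ℝ) + 2)))
      (Ioc 0 1) := ((chamA_k hF).1.const_mul _).integrableOn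
  refine h1.congr_fun (fun τ hτ => ?_) measurableSet_Ioc
  show 1 / ((n : ℝ) + 2) * chamA_g F ((1 - τ) / ((n : ℝ) + 2)) = _
  rw [chamA_g_ray F hτ.1 hτ.2]
  ring

end Vale.Agent.P254U
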