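import Vale.Agent.Lib.P254U.FS.SimpG

/-!
P254U/LM/CircA: a minimal circumscribed simplex.

Let `M v` be the matrix with rows `v j - v 0`; `vol (conv v) = |det M v| / n!` (affine image of
`stdS n`).  The set of all `v` with `K ⊆ conv (range v)` and `|det M v| ≤ |det M v0|` is closed (if
`v_m → v` and `x = Σ λ^m_j v_m,j ∈ K`, pass to a convergent subsequence of `λ^m`) and bounded: `K`
contains a ball `B(x0, r)`, and `conv (B(x0,r) ∪ {v j})` contains the simplex with vertices `x0`,
`v j`, `x0 + r e_k` (`k ≠ i`) of volume `r^(n-1) |v j i - x0 i| / n!`.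
-/

open MeasureTheory Set

namespace Vale.Agent.P254U

variable {n : ℕ}

theorem CircA_mem_iff (v : Fin (n + 1) → (Fin n → ℝ)) (x : Fin n → ℝ) :
    x ∈ convexHull ℝ (range v) ↔ ∃ l : Fin (n + 1) → ℝ, l ∈ stdSimplex ℝ (Fin (n + 1)) ∧
      ∑ j, l j • v j = x := by
  constructor
  · intro hx
    have hconv : Convex ℝ {x : Fin n → ℝ | ∃ l : Fin (n + 1) → ℝ,
        l ∈ stdSimplex ℝ (Fin (n + 1)) ∧ ∑ j, l j • v j = x} := by
      rintro x ⟨l, hl, rfl⟩ y ⟨m, hm, rfl⟩ a b ha hb hab
      refine ⟨a • l + b • m, convex_stdSimplex ℝ _ hl hm ha hb hab, ?_⟩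
      simp only [Pi.add_apply, Pi.smul_apply, smul_eq_mul, add_smul, mul_smul,
        Finset.sum_add_distrib, Finset.smul_sum]
    have hsub : range v ⊆ {x : Fin n → ℝ | ∃ l : Fin (n + 1) → ℝ,
        l ∈ stdSimplex ℝ (Fin (n + 1)) ∧ ∑ j, l j • v j = x} := by
      rintro _ ⟨j, rfl⟩
      refine ⟨Pi.single j 1, single_mem_stdSimplex ℝ j, ?_⟩
      rw [Finset.sum_eq_single j]
      · simp
      · intro i _ hij
        simp [Pi.single_eq_of_ne hij]
      · intro h
        exact absurd (Finset.mem_univ j) h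
    exact convexHull_min hsub hconv hx
  · rintro ⟨l, hl, rfl⟩
    exact (convex_convexHull ℝ (range v)).sum_mem (fun i _ => hl.1 i) hl.2
      (fun i _ => subset_convexHull ℝ _ ⟨i, rfl⟩)

/-- the matrix of edge vectors -/
def CircA_M (v : Fin (n + 1) → (Fin n → ℝ)) : Matrix (Fin n) (Fin n) ℝ :=
  Matrix.of fun i j : Fin n => v i.succ j - v 0 j

theorem CircA_image (v : Fin (n + 1) → (Fin n → ℝ)) :
    convexHull ℝ (range v) =
      (fun y => v 0 + y) '' ((Matrix.toLin' (CircA_M v).transpose) '' stdS n) := by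
  have hT : ∀ x : Fin n → ℝ, v 0 + (Matrix.toLin' (CircA_M v).transpose) x =
      ∑ i : Fin (n + 1), (Fin.cons (1 - ∑ i, x i) x : Fin (n + 1) → ℝ) i • v i := by
    intro x
    rw [Fin.sum_univ_succ]
    simp only [Fin.cons_zero, Fin.cons_succ, sub_smul, one_smul]
    ext j
    simp only [Matrix.toLin'_apply, Pi.add_apply, Matrix.mulVec, dotProduct,
      Matrix.transpose_apply, CircA_M, Matrix.of_apply, Pi.sub_apply, Pi.smul_apply, smul_eq_mul,
      Finset.sum_apply, sub_mul, Finset.sum_sub_distrib, Finset.sum_mul]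
    have e1 : ∑ i : Fin n, v i.succ j * x i = ∑ i : Fin n, x i * v i.succ j :=
      Finset.sum_congr rfl fun i _ => mul_comm _ _
    have e2 : ∑ i : Fin n, v 0 j * x i = ∑ i : Fin n, x i * v 0 j :=
      Finset.sum_congr rfl fun i _ => mul_comm _ _
    rw [e1, e2]
    ring
  apply Set.Subset.antisymm
  · intro x hx
    obtain ⟨l, hl, rfl⟩ := (CircA_mem_iff v x).1 hx
    have hl2 := hl.2
    rw [Fin.sum_univ_succ] at hl2
    refine ⟨_, ⟨fun i => l i.succ, ⟨fun i => hl.1 _, ?_⟩, rfl⟩, ?_⟩
    · have := hl.1 0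
      linarith
    · change v 0 + (Matrix.toLin' (CircA_M v).transpose) (fun i => l i.succ) = _
      rw [hT, Fin.sum_univ_succ, Fin.sum_univ_succ]
      simp only [Fin.cons_zero, Fin.cons_succ]
      have : 1 - ∑ i : Fin n, l i.succ = l 0 := by linarith
      rw [this]
  · rintro _ ⟨_, ⟨x, hx, rfl⟩, rfl⟩
    change v 0 + (Matrix.toLin' (CircA_M v).transpose) x ∈ _
    rw [hT]
    refine (CircA_mem_iff v _).2 ⟨_, ⟨?_, ?_⟩, rfl⟩
    · intro i
      refine Fin.cases ?_ (fun k => ?_) i
      · simp only [Fin.cons_zero]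
        linarith [hx.2]
      · simp only [Fin.cons_succ]
        exact hx.1 k
    · rw [Fin.sum_univ_succ]
      simp

/-- volume of a simplex with vertices `v` -/
theorem vol_simplex (v : Fin (n + 1) → (Fin n → ℝ)) :
    (volume (convexHull ℝ (range v))).toReal =
      |(Matrix.of fun i j : Fin n => v i.succ j - v 0 j).det| / (n.factorial : ℝ) := by
  rw [CircA_image v, Set.image_add_left, measure_preimage_add, Measure.addHaar_image_linearMap,
    ENNReal.toReal_mul, ENNReal.toReal_ofReal (abs_nonneg _), simp_vol, LinearMap.det_toLin',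
    Matrix.det_transpose]
  unfold CircA_M
  rw [mul_one_div]

theorem CircA_closed (K : Set (Fin n → ℝ)) :
    IsClosed {v : Fin (n + 1) → (Fin n → ℝ) | K ⊆ convexHull ℝ (range v)} := by
  have h1 : {v : Fin (n + 1) → (Fin n → ℝ) | K ⊆ convexHull ℝ (range v)} =
      ⋂ x ∈ K, {v : Fin (n + 1) → (Fin n → ℝ) | x ∈ convexHull ℝ (range v)} := by
    ext v
    simp only [mem_ofPred_eq, mem_iInter]
    exact Iff.rfl
  rw [h1]
  refine isClosed_biInter fun x _ => ?_
  have : CompactSpace (stdSimplex ℝ (Fin (n + 1))) :=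
    isCompact_iff_compactSpace.1 (isCompact_stdSimplex ℝ (Fin (n + 1)))
  have h2 : {v : Fin (n + 1) → (Fin n → ℝ) | x ∈ convexHull ℝ (range v)} =
      Prod.snd '' {p : (stdSimplex ℝ (Fin (n + 1))) × (Fin (n + 1) → (Fin n → ℝ)) |
        ∑ j, (p.1 : Fin (n + 1) → ℝ) j • p.2 j = x} := by
    ext v
    simp only [mem_ofPred_eq, mem_image, Prod.exists, exists_eq_right]
    rw [CircA_mem_iff]
    constructor
    · rintro ⟨l, hl, h⟩
      exact ⟨⟨l, hl⟩, h⟩
    · rintro ⟨l, h⟩
      exact ⟨l.1, l.2, h⟩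
  rw [h2]
  refine isClosedMap_snd_of_compactSpace _ ?_
  refine isClosed_eq ?_ continuous_const
  refine continuous_finsetSum _ fun j _ => ?_
  have hc1 : Continuous fun p : (stdSimplex ℝ (Fin (n + 1))) × (Fin (n + 1) → (Fin n → ℝ)) =>
      (p.1 : Fin (n + 1) → ℝ) j :=
    (continuous_apply j).comp (continuous_subtype_val.comp continuous_fst)
  have hc2 : Continuous fun p : (stdSimplex ℝ (Fin (n + 1))) × (Fin (n + 1) → (Fin n → ℝ)) =>
      p.2 j := (continuous_apply j).comp continuous_snd
  exact hc1.smul hc2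

theorem CircA_compact_hull (v : Fin (n + 1) → (Fin n → ℝ)) :
    IsCompact (convexHull ℝ (range v)) :=
  (finite_range v).isCompact_convexHull (𝕜 := ℝ)

theorem CircA_mono {v w : Fin (n + 1) → (Fin n → ℝ)} (h : ∀ j, w j ∈ convexHull ℝ (range v)) :
    (volume (convexHull ℝ (range w))).toReal ≤ (volume (convexHull ℝ (range v))).toReal := by
  refine ENNReal.toReal_mono (CircA_compact_hull v).measure_lt_top.ne (measure_mono ?_)
  refine convexHull_min ?_ (convex_convexHull ℝ _)
  rintro _ ⟨j, rfl⟩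
  exact h j

/-- points of the hull are at bounded distance from the centre of a box inside -/
theorem CircA_bound (hn : 1 ≤ n) {v : Fin (n + 1) → (Fin n → ℝ)} {x0 : Fin n → ℝ} {r : ℝ}
    (hr : 0 < r) (hball : Metric.closedBall x0 r ⊆ convexHull ℝ (range v)) {z : Fin n → ℝ}
    (hz : z ∈ convexHull ℝ (range v)) :
    r ^ (n - 1) * ‖z - x0‖ ≤
      |(Matrix.of fun i j : Fin n => v i.succ j - v 0 j).det| := by
  classical
  have : Nonempty (Fin n) := ⟨⟨0, hn⟩⟩
  obtain ⟨i, hi⟩ : ∃ i, ‖z - x0‖ = |z i - x0 i| := by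
    obtain ⟨i, -, hi⟩ := Finset.exists_max_image Finset.univ (fun i => |z i - x0 i|)
      Finset.univ_nonempty
    refine ⟨i, le_antisymm ?_ ?_⟩
    · rw [pi_norm_le_iff_of_nonneg (abs_nonneg _)]
      intro j
      rw [Real.norm_eq_abs]
      exact hi j (Finset.mem_univ j)
    · have := norm_le_pi_norm (z - x0) i
      rwa [Real.norm_eq_abs] at this
  set w : Fin (n + 1) → (Fin n → ℝ) :=
    Fin.cons x0 (fun j => if j = i then z else x0 + Pi.single j r) with hw
  have hwm : ∀ j, w j ∈ convexHull ℝ (range v) := by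
    intro j
    refine Fin.cases ?_ (fun k => ?_) j
    · simp only [hw, Fin.cons_zero]
      exact hball (Metric.mem_closedBall_self hr.le)
    · simp only [hw, Fin.cons_succ]
      split_ifs with h
      · exact hz
      · apply hball
        rw [Metric.mem_closedBall, dist_eq_norm, add_sub_cancel_left,
          pi_norm_le_iff_of_nonneg hr.le]
        intro l
        by_cases hl : l = k
        · subst hl
          simp [abs_of_pos hr]
        · simp [Pi.single_eq_of_ne hl, hr.le]
  have hvol := CircA_mono hwm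
  rw [vol_simplex, vol_simplex] at hvol
  have hf : (0 : ℝ) < (n.factorial : ℝ) := by exact_mod_cast Nat.factorial_pos n
  rw [div_le_div_iff_of_pos_right hf] at hvol
  refine le_trans (le_of_eq ?_) hvol
  have hM : (Matrix.of fun i j : Fin n => w i.succ j - w 0 j) =
      (r • (1 : Matrix (Fin n) (Fin n) ℝ)).updateRow i (z - x0) := by
    ext a b
    rw [Matrix.updateRow_apply]
    simp only [Matrix.of_apply, hw, Fin.cons_succ, Fin.cons_zero]
    split_ifs with h
    · rfl
    · simp only [Pi.add_apply, add_sub_cancel_left, Matrix.smul_apply, smul_eq_mul,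
        Matrix.one_apply, Pi.single_apply]
      by_cases hab : a = b
      · subst hab; simp
      · rw [if_neg (Ne.symm hab), if_neg hab]; simp
  rw [hM, ← Matrix.cramer_transpose_apply, Matrix.transpose_smul, Matrix.transpose_one,
    Matrix.cramer_smul, Matrix.cramer_one, hi]
  simp only [LinearMap.smul_apply, Module.End.one_apply, Pi.smul_apply, Pi.sub_apply,
    smul_eq_mul, Fintype.card_fin, abs_mul, abs_pow, abs_of_pos hr]

/-- existence of a minimiser -/
theorem exists_min_simplex (hn : 1 ≤ n) {K : Set (Fin n → ℝ)} (hK : ConvBody n K)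
    {v0 : Fin (n + 1) → (Fin n → ℝ)} (hsub : K ⊆ convexHull ℝ (range v0)) :
    ∃ v : Fin (n + 1) → (Fin n → ℝ), AffineIndependent ℝ v ∧ K ⊆ convexHull ℝ (range v) ∧
      (volume (convexHull ℝ (range v))).toReal ≤ (volume (convexHull ℝ (range v0))).toReal ∧
      ∀ w : Fin (n + 1) → (Fin n → ℝ), K ⊆ convexHull ℝ (range w) →
        (volume (convexHull ℝ (range v))).toReal ≤ (volume (convexHull ℝ (range w))).toReal := by
  have hf : (0 : ℝ) < (n.factorial : ℝ) := by exact_mod_cast Nat.factorial_pos n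
  obtain ⟨x0, hx0⟩ := hK.interior_nonempty
  obtain ⟨r, hr, hball⟩ := Metric.nhds_basis_closedBall.mem_iff.1 (isOpen_interior.mem_nhds hx0)
  have hballK : Metric.closedBall x0 r ⊆ K := hball.trans interior_subset
  set F : (Fin (n + 1) → (Fin n → ℝ)) → ℝ := fun v =>
    |(Matrix.of fun i j : Fin n => v i.succ j - v 0 j).det| with hF
  have hFc : Continuous F := by
    refine Continuous.abs (Continuous.matrix_det ?_)
    refine continuous_matrix fun i j => ?_
    fun_prop
  set S : Set (Fin (n + 1) → (Fin n → ℝ)) :=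
    {v | K ⊆ convexHull ℝ (range v)} ∩ {v | F v ≤ F v0} with hS
  have hSc : IsClosed S := (CircA_closed K).inter (isClosed_le hFc continuous_const)
  have hSb : Bornology.IsBounded S := by
    rw [Metric.isBounded_iff_subset_closedBall (fun _ => x0)]
    refine ⟨F v0 / r ^ (n - 1), ?_⟩
    rintro v ⟨hv1, hv2⟩
    have hp : 0 < r ^ (n - 1) := pow_pos hr _
    have hF0 : 0 ≤ F v0 := abs_nonneg _
    rw [Metric.mem_closedBall, dist_pi_le_iff (by positivity)]
    intro j
    rw [dist_eq_norm, le_div_iff₀ hp, mul_comm]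
    exact (CircA_bound hn hr (hballK.trans hv1) (subset_convexHull ℝ _ ⟨j, rfl⟩)).trans hv2
  have hScomp : IsCompact S := Metric.isCompact_of_isClosed_isBounded hSc hSb
  obtain ⟨v, hvS, hvmin⟩ := hScomp.exists_isMinOn ⟨v0, hsub, le_refl (F v0)⟩ hFc.continuousOn
  refine ⟨v, ?_, hvS.1, ?_, ?_⟩
  · have hint : (interior (convexHull ℝ (range v))).Nonempty :=
      ⟨x0, interior_mono hvS.1 hx0⟩
    rw [interior_convexHull_nonempty_iff_affineSpan_eq_top] at hint
    rw [affineIndependent_iff_finrank_vectorSpan_eq ℝ v (Fintype.card_fin (n + 1)),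
      ← direction_affineSpan, hint, AffineSubspace.direction_top, finrank_top]
    simp
  · rw [vol_simplex, vol_simplex, div_le_div_iff_of_pos_right hf]
    exact hvS.2
  · intro w hw
    rw [vol_simplex, vol_simplex, div_le_div_iff_of_pos_right hf]
    by_cases h : F w ≤ F v0
    · exact hvmin ⟨hw, h⟩
    · exact hvS.2.trans (not_le.1 h).le

end Vale.Agent.P254U
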