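import Vale.Agent.Lib.P254U.LM.CircA

/-!
P254U/LM/CircB: a minimal circumscribed simplex.

Let `M v` be the matrix with rows `v j - v 0`; `vol (conv v) = |det M v| / n!` (affine image of
`stdS n`).  The set of all `v` with `K ⊆ conv (range v)` and `|det M v| ≤ |det M v0|` is closed (if
`v_m → v` and `x = Σ λ^m_j v_m,j ∈ K`, pass to a convergent subsequence of `λ^m`) and bounded: `K`
contains a ball `B(x0, r)`, and `conv (B(x0,r) ∪ {v j})` contains a set of volume
`≥ c(n, r) ‖v j - x0‖` (for instance the image of a fixed simplex; or bound barycentric coordinates).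
Let `v` minimise `|det M v|`.  Fix `k` and suppose that the facet centroid
`g = (1/n) Σ_{j ≠ k} v_j` is not in `K`.  With barycentric coordinates `μ_j(x)` with respect to `v`,
the set `{(μ_j(x))_{j ≠ k} : x ∈ K, μ_k(x) = 0}` is compact convex and does not contain
`(1/n, ..., 1/n)`; by separation (and adding a constant, as `Σ_{j≠k} μ_j = 1` there) there are `c_j`
(`j ≠ k`) with `Σ c_j > 0` and `Σ c_j μ_j(x) < 0` for all `x ∈ K` with `μ_k(x) = 0` (if there is no such
`x` take `c_j = 1`).  For small `τ > 0` the simplex with vertices `v_k` and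
`v_k + (v_j - v_k)/(1 + τ c_j)` is `{x : μ_j(x) ≥ 0 (j ≠ k), Σ_{j≠k} μ_j(x) (1 + τ c_j) ≤ 1}`; it
contains `K` for small `τ` (compactness of `{x ∈ K : Σ c_j μ_j ≥ 0}`, where `μ_k ≥ δ > 0`), and its
volume is `vol (conv v) / Π (1 + τ c_j) < vol (conv v)` for small `τ > 0`: contradiction.
-/

open MeasureTheory Set

namespace Vale.Agent.P254U

variable {n : ℕ}

private theorem CircB_lin {v : Fin (n + 1) → (Fin n → ℝ)} (hv : AffineIndependent ℝ v) :
    LinearIndependent ℝ (fun i : Fin n => v i.succ - v 0) := by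
  have h1 := (affineIndependent_iff_linearIndependent_vsub ℝ v 0).1 hv
  exact h1.comp (fun i : Fin n => (⟨i.succ, Fin.succ_ne_zero i⟩ : {x : Fin (n + 1) // x ≠ 0}))
    (by
      intro a b hab
      exact Fin.succ_injective _ (congrArg Subtype.val hab))

private theorem CircB_mem (v : Fin (n + 1) → (Fin n → ℝ)) (y : Fin n → ℝ) (h0 : ∀ i, 0 ≤ y i)
    (h1 : ∑ i, y i ≤ 1) : v 0 + ∑ i, y i • (v i.succ - v 0) ∈ convexHull ℝ (range v) := by
  have h4 : v 0 + ∑ i, y i • (v i.succ - v 0) =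
      ∑ i : Fin (n + 1), (Fin.cons (1 - ∑ i, y i) y : Fin (n + 1) → ℝ) i • v i := by
    rw [Fin.sum_univ_succ]
    simp only [Fin.cons_zero, Fin.cons_succ, smul_sub, Finset.sum_sub_distrib, sub_smul,
      one_smul, ← Finset.sum_smul]
    abel
  rw [h4]
  refine (convex_convexHull ℝ (range v)).sum_mem ?_ ?_ ?_
  · intro i _
    refine Fin.cases ?_ (fun k => ?_) i
    · simp only [Fin.cons_zero]
      linarith
    · simp only [Fin.cons_succ]
      exact h0 k
  · rw [Fin.sum_univ_succ]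
    simp
  · intro i _
    exact subset_convexHull ℝ _ ⟨i, rfl⟩

private theorem CircB_T {v : Fin (n + 1) → (Fin n → ℝ)} (hv : AffineIndependent ℝ v) :
    ∃ T : (Fin n → ℝ) ≃ᵃ[ℝ] (Fin n → ℝ), convexHull ℝ (range v) ⊆ T '' stdS n ∧
      ∀ x, T x = v 0 + ∑ i, x i • (v i.succ - v 0) := by
  have h2 := CircB_lin hv
  have h2s : ⊤ ≤ Submodule.span ℝ (range (fun i : Fin n => v i.succ - v 0)) := by
    rw [h2.span_eq_top_of_card_eq_finrank' (by simp)]
  let b := Module.Basis.mk h2 h2s
  have hb : ∀ i, b i = v i.succ - v 0 := by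
    intro i
    exact Module.Basis.mk_apply h2 h2s i
  let T : (Fin n → ℝ) ≃ᵃ[ℝ] (Fin n → ℝ) :=
    (b.equivFun.symm.toAffineEquiv).trans (AffineEquiv.constVAdd ℝ (Fin n → ℝ) (v 0))
  have hT : ∀ x, T x = v 0 + ∑ i, x i • (v i.succ - v 0) := by
    intro x
    change v 0 + b.equivFun.symm x = _
    rw [Module.Basis.equivFun_symm_apply]
    simp only [hb]
  refine ⟨T, ?_, hT⟩
  refine convexHull_min ?_ ?_
  · rintro _ ⟨i, rfl⟩
    refine Fin.cases ?_ (fun k => ?_) i
    · refine ⟨0, ⟨fun _ => le_refl _, by simp⟩, ?_⟩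
      rw [hT]
      simp
    · refine ⟨Pi.single k 1, ⟨fun j => ?_, ?_⟩, ?_⟩
      · by_cases hj : j = k
        · subst hj; simp
        · simp [Pi.single_eq_of_ne hj]
      · rw [Finset.sum_pi_single']
        simp
      · rw [hT, Finset.sum_eq_single k]
        · simp
        · intro j _ hj
          simp [Pi.single_eq_of_ne hj]
        · intro h
          exact absurd (Finset.mem_univ k) h
  · exact (simp_convex n).affine_image (T : (Fin n → ℝ) →ᵃ[ℝ] (Fin n → ℝ))

private theorem CircB_prod (c : Fin n → ℝ) (hc : 0 < ∑ i, c i) (u : ℝ) :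
    ∃ τ : ℝ, 0 < τ ∧ (∀ i, 0 < 1 + τ * c i) ∧ 1 < ∏ i, (1 + τ * c i) ∧ 0 ≤ 1 + τ * u := by
  have hd : HasDerivAt (fun τ : ℝ => ∏ i, (1 + τ * c i)) (∑ i, c i) 0 := by
    have h := HasDerivAt.finsetProd (u := (Finset.univ : Finset (Fin n)))
      (f := fun i (τ : ℝ) => 1 + τ * c i) (f' := c) (x := 0) (fun i _ => by
        have h1 := ((hasDerivAt_id (0 : ℝ)).mul_const (c i)).const_add 1
        simpa using h1)
    refine (h.congr_of_eventuallyEq ?_).congr_deriv ?_
    · exact Filter.Eventually.of_forall fun τ => by simp [Finset.prod_apply]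
    · simp
  have h1 := (hasDerivAt_iff_tendsto_slope_zero.1 hd).mono_left
    (nhdsWithin_mono (0 : ℝ) (fun x (hx : x ∈ Ioi (0 : ℝ)) => ne_of_gt hx))
  have h2 : ∀ᶠ τ in nhdsWithin (0 : ℝ) (Ioi 0), 1 < ∏ i, (1 + τ * c i) := by
    filter_upwards [h1.eventually (lt_mem_nhds hc), self_mem_nhdsWithin] with τ hτ hτ0
    simp only [zero_add, zero_mul, add_zero, Finset.prod_const_one, smul_eq_mul] at hτ
    have h3 : 0 < τ⁻¹ := inv_pos.2 hτ0
    have h4 := (mul_pos_iff_of_pos_left h3).1 hτ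
    linarith
  have h3 : ∀ a : ℝ, ∀ᶠ τ in nhdsWithin (0 : ℝ) (Ioi 0), 0 < 1 + τ * a := by
    intro a
    have hcont : Filter.Tendsto (fun τ : ℝ => 1 + τ * a) (nhdsWithin (0 : ℝ) (Ioi 0))
        (nhds (1 + 0 * a)) :=
      ((continuous_const.add (continuous_id.mul continuous_const)).tendsto 0).mono_left
        nhdsWithin_le_nhds
    exact hcont.eventually (lt_mem_nhds (by simp))
  obtain ⟨τ, h4, h5, h6, h7⟩ := (h2.and ((Filter.eventually_all.2 fun i => h3 (c i)).and
    ((h3 u).and self_mem_nhdsWithin))).exists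
  exact ⟨τ, h7, h5, h4, h6.le⟩

private theorem CircB_zero (hn : 1 ≤ n) {K : Set (Fin n → ℝ)} (hK : ConvBody n K)
    {v : Fin (n + 1) → (Fin n → ℝ)} (hv : AffineIndependent ℝ v)
    (hsub : K ⊆ convexHull ℝ (range v))
    (hmin : ∀ w : Fin (n + 1) → (Fin n → ℝ), K ⊆ convexHull ℝ (range w) →
        (volume (convexHull ℝ (range v))).toReal ≤ (volume (convexHull ℝ (range w))).toReal) :
    (1 / (n : ℝ)) • ∑ i : Fin n, v i.succ ∈ K := by
  by_contra hcon
  have hn0 : (n : ℝ) ≠ 0 := by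
    have : (0 : ℝ) < n := by exact_mod_cast hn
    exact this.ne'
  obtain ⟨T, hTs, hT⟩ := CircB_T hv
  -- the body in coordinates
  have hTc : Continuous (T : (Fin n → ℝ) → (Fin n → ℝ)) := by
    have h1 : (T : (Fin n → ℝ) → (Fin n → ℝ)) = fun x => v 0 + ∑ i, x i • (v i.succ - v 0) :=
      funext hT
    rw [h1]
    fun_prop
  have hK' : IsClosed (T ⁻¹' K) := hK.compact.isClosed.preimage hTc
  have hKc : Convex ℝ (T ⁻¹' K) :=
    hK.convex.affine_preimage (T : (Fin n → ℝ) →ᵃ[ℝ] (Fin n → ℝ))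
  set g : Fin n → ℝ := fun _ => 1 / (n : ℝ) with hg
  have hTg : T g = (1 / (n : ℝ)) • ∑ i : Fin n, v i.succ := by
    rw [hT]
    simp only [hg, ← Finset.smul_sum, Finset.sum_sub_distrib, Finset.sum_const,
      Finset.card_univ, Fintype.card_fin, smul_sub]
    rw [← Nat.cast_smul_eq_nsmul ℝ, smul_smul, one_div, inv_mul_cancel₀ hn0, one_smul]
    abel
  have hgK : g ∉ T ⁻¹' K := by
    intro h
    apply hcon
    rw [← hTg]
    exact h
  obtain ⟨f, u, hfg, hfK⟩ := geometric_hahn_banach_point_closed hKc hK' hgK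
  have hf : ∀ y : Fin n → ℝ, f y = ∑ i, y i * f (Pi.single i 1) := by
    intro y
    conv_lhs => rw [pi_eq_sum_univ' y]
    rw [map_sum]
    refine Finset.sum_congr rfl fun i _ => ?_
    rw [map_smul, smul_eq_mul]
  set c : Fin n → ℝ := fun i => u - f (Pi.single i 1) with hc
  have hcs : 0 < ∑ i, c i := by
    have h1 : f g = (1 / (n : ℝ)) * ∑ i, f (Pi.single i 1) := by
      rw [hf g, Finset.mul_sum]
    have h2 : ∑ i, c i = n * (u - f g) := by
      simp only [hc, Finset.sum_sub_distrib, Finset.sum_const, Finset.card_univ,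
        Fintype.card_fin, nsmul_eq_mul]
      rw [h1]
      field_simp
    rw [h2]
    have h3 : (0 : ℝ) < n := by exact_mod_cast hn
    exact mul_pos h3 (by linarith)
  obtain ⟨τ, hτ, hd, hprod, hu⟩ := CircB_prod c hcs u
  -- the smaller simplex
  set w : Fin (n + 1) → (Fin n → ℝ) :=
    Fin.cons (v 0) (fun i => v 0 + (1 + τ * c i)⁻¹ • (v i.succ - v 0)) with hw
  have hw0 : w 0 = v 0 := by rw [hw, Fin.cons_zero]
  have hws : ∀ i : Fin n, w i.succ = v 0 + (1 + τ * c i)⁻¹ • (v i.succ - v 0) := by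
    intro i
    rw [hw, Fin.cons_succ]
  have hKw : K ⊆ convexHull ℝ (range w) := by
    intro x hx
    obtain ⟨y, hy, rfl⟩ := hTs (hsub hx)
    have h1 : T y = w 0 + ∑ i, (y i * (1 + τ * c i)) • (w i.succ - w 0) := by
      rw [hT, hw0]
      congr 1
      refine Finset.sum_congr rfl fun i _ => ?_
      rw [hws, add_sub_cancel_left, smul_smul, mul_assoc, mul_inv_cancel₀ (hd i).ne', mul_one]
    rw [h1]
    refine CircB_mem w _ (fun i => mul_nonneg (hy.1 i) (hd i).le) ?_
    have h2 := hfK y hx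
    have h3 : ∑ i, y i * (1 + τ * c i) = ∑ i, y i + τ * (u * ∑ i, y i - f y) := by
      rw [hf y]
      simp only [hc, mul_add, mul_one, Finset.sum_add_distrib, Finset.mul_sum,
        Finset.sum_sub_distrib, mul_sub]
      congr 1
      congr 1
      · refine Finset.sum_congr rfl fun i _ => ?_
        ring
      · refine Finset.sum_congr rfl fun i _ => ?_
        ring
    rw [h3]
    have h4 : 0 ≤ (1 - ∑ i, y i) * (1 + τ * u) := mul_nonneg (by linarith [hy.2]) hu
    have h5 : τ * u ≤ τ * f y := mul_le_mul_of_nonneg_left h2.le hτ.le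
    nlinarith
  have h1 := hmin w hKw
  rw [vol_simplex, vol_simplex] at h1
  have hfac : (0 : ℝ) < (n.factorial : ℝ) := by exact_mod_cast n.factorial_pos
  have h2 := (div_le_div_iff_of_pos_right hfac).1 h1
  have hW : (Matrix.of fun i j : Fin n => w i.succ j - w 0 j) =
      Matrix.of fun i j : Fin n => (1 + τ * c i)⁻¹ *
        (Matrix.of fun i j : Fin n => v i.succ j - v 0 j) i j := by
    ext i j
    simp only [Matrix.of_apply]
    rw [hws, hw0]
    simp
  rw [hW, Matrix.det_mul_column, abs_mul] at h2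
  have hdet : 0 < |(Matrix.of fun i j : Fin n => v i.succ j - v 0 j).det| := by
    have h3 : LinearIndependent ℝ (Matrix.of fun i j : Fin n => v i.succ j - v 0 j).row :=
      CircB_lin hv
    have h4 := Matrix.linearIndependent_rows_iff_isUnit.1 h3
    rw [Matrix.isUnit_iff_isUnit_det] at h4
    exact abs_pos.2 h4.ne_zero
  have h5 : |∏ i, (1 + τ * c i)⁻¹| < 1 := by
    rw [Finset.prod_inv_distrib, abs_of_pos (inv_pos.2 (by linarith))]
    exact inv_lt_one_of_one_lt₀ hprod
  nlinarith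

/-- a minimiser has its facet centroids in `K` -/
theorem centroid_mem_of_min (hn : 1 ≤ n) {K : Set (Fin n → ℝ)} (hK : ConvBody n K)
    {v : Fin (n + 1) → (Fin n → ℝ)} (hv : AffineIndependent ℝ v)
    (hsub : K ⊆ convexHull ℝ (range v))
    (hmin : ∀ w : Fin (n + 1) → (Fin n → ℝ), K ⊆ convexHull ℝ (range w) →
        (volume (convexHull ℝ (range v))).toReal ≤ (volume (convexHull ℝ (range w))).toReal)
    (k : Fin (n + 1)) :
    (1 / (n : ℝ)) • ∑ j ∈ Finset.univ.erase k, v j ∈ K := by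
  set e : Fin (n + 1) ≃ Fin (n + 1) := Equiv.swap 0 k with he
  have hr : range (v ∘ e) = range v := e.surjective.range_comp v
  have h := CircB_zero hn hK (v := v ∘ e) (hv.comp_embedding e.toEmbedding)
    (by rw [hr]; exact hsub) (by rw [hr]; exact hmin)
  have h2 : ∑ j ∈ Finset.univ.erase k, v j = ∑ i : Fin n, (v ∘ e) i.succ := by
    have h3 : ∑ j, (v ∘ e) j = ∑ j, v j := Equiv.sum_comp e v
    have h4 := Finset.add_sum_erase Finset.univ v (Finset.mem_univ k)
    rw [Fin.sum_univ_succ] at h3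
    have h5 : (v ∘ e) 0 = v k := by
      simp [he]
    rw [h5, ← h4] at h3
    exact (add_left_cancel h3).symm
  rw [h2]
  exact h

end Vale.Agent.P254U
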