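import Vale.Agent.Lib.P254U.LM.Defs
import Vale.Agent.Lib.P254U.FS.SimpG

/-!
P254U/LM/Close: a simplex `conv w ⊆ stdS n` of almost full volume contains a large homothetic copy.

Let `β_i` be the barycentric coordinates with respect to `w` (affine functions, `β_i(w_j) = δ_ij`,
`Σ β_i = 1`).  `bary_ge`: for `z ∈ stdS n` with `β_i(z) < 0` the simplex with vertices `w_j (j ≠ i), z` is
the image of `conv w` under the affine map `x ↦ x + β_i(x) (z - w_i)`, whose determinant is
`β_i(z)`, so its volume is `|β_i(z)| vol (conv w)`; it lies in `stdS n ∩ {β_i ≤ 0}` while `conv w`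
lies in `stdS n ∩ {β_i ≥ 0}`; hence `(1 + |β_i(z)|) vol (conv w) ≤ vol (stdS n)` and
`β_i(z) ≥ -ε`.
`near_of_volume`: some vertex `e` of `stdS n` has `β_i(e) ≥ 1` (as `β_i(w_i) = 1`), all others have
`β_i ≥ -ε`, so `β_i(ctr n) ≥ (1 - n ε)/(n+1)`; with `1 - δ = (1+η)⁻¹`:
`β_i(ctr n + (1-δ)(x - ctr n)) ≥ -(1-δ) ε + δ (1 - nε)/(n+1) ≥ 0`.
-/

open MeasureTheory Set

namespace Vale.Agent.P254U

variable {n : ℕ}

private theorem Close_vol (g : (Fin n → ℝ) →ₗ[ℝ] ℝ) (c : ℝ) (v : Fin n → ℝ)
    (S : Set (Fin n → ℝ)) :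
    volume ((fun x : Fin n → ℝ => x + (g x + c) • v) '' S) =
      ENNReal.ofReal |1 + g v| * volume S := by
  have h : (fun x : Fin n → ℝ => x + (g x + c) • v) =
      (fun x => x + c • v) ∘ (LinearMap.transvection g v) := by
    funext x
    simp only [Function.comp_apply, LinearMap.transvection.apply, add_smul]
    abel
  rw [h, image_comp, image_add_right, measure_preimage_add_right,
    Measure.addHaar_image_linearMap, LinearMap.transvection.det]

private theorem Close_null (f : (Fin n → ℝ) →ᵃ[ℝ] ℝ) {p : Fin n → ℝ} (hp : f p ≠ 0) :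
    volume {x : Fin n → ℝ | f x = 0} = 0 := by
  have h1 : ((((affineSpan ℝ ({0} : Set ℝ)).comap f : AffineSubspace ℝ (Fin n → ℝ))) :
      Set (Fin n → ℝ)) = {x : Fin n → ℝ | f x = 0} := by
    rw [AffineSubspace.coe_comap, AffineSubspace.coe_affineSpan_singleton]
    rfl
  rw [← h1]
  refine Measure.addHaar_affineSubspace _ _ ?_
  intro h
  have h2 : p ∈ ((affineSpan ℝ ({0} : Set ℝ)).comap f : AffineSubspace ℝ (Fin n → ℝ)) := by
    rw [h]
    exact AffineSubspace.mem_top ℝ _ p
  have h3 : p ∈ {x : Fin n → ℝ | f x = 0} := by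
    rw [← h1]
    exact h2
  exact hp h3

/-- barycentric coordinates are bounded below -/
theorem bary_ge {w : Fin (n + 1) → (Fin n → ℝ)} (b : AffineBasis (Fin (n + 1)) ℝ (Fin n → ℝ))
    (hb : ⇑b = w) (hsub : convexHull ℝ (range w) ⊆ stdS n) {ε : ℝ} (hε : 0 ≤ ε)
    (hvol : (volume (stdS n)).toReal ≤
      (1 + ε) * (volume (convexHull ℝ (range w))).toReal)
    {z : Fin n → ℝ} (hz : z ∈ stdS n) (i : Fin (n + 1)) : -ε ≤ b.coord i z := by
  subst hb
  by_cases h0 : 0 ≤ b.coord i z
  · linarith
  push Not at h0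
  have hdec : ∀ x, b.coord i x = (b.coord i).linear x + b.coord i 0 :=
    fun x => congrFun (b.coord i).decomp x
  have hi1 : b.coord i (b i) = 1 := b.coord_apply_eq i
  have hlin : (b.coord i).linear (z - b i) = b.coord i z - 1 := by
    rw [map_sub]
    have h1 := hdec z
    have h2 := hdec (b i)
    rw [hi1] at h2
    linarith
  have hA : convexHull ℝ (range b) = {x | ∀ j, 0 ≤ b.coord j x} := b.convexHull_eq_nonneg_coord
  have hAc : IsCompact (convexHull ℝ (range b)) :=
    (finite_range b).isCompact_convexHull (𝕜 := ℝ)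
  have hTc : Continuous (fun x : Fin n → ℝ =>
      x + ((b.coord i).linear x + b.coord i 0) • (z - b i)) := by
    have hg : Continuous (fun x : Fin n → ℝ => (b.coord i).linear x) :=
      LinearMap.continuous_of_finiteDimensional (b.coord i).linear
    fun_prop
  have hTv := Close_vol (b.coord i).linear (b.coord i 0) (z - b i) (convexHull ℝ (range b))
  have hTe : ∀ x : Fin n → ℝ, x + ((b.coord i).linear x + b.coord i 0) • (z - b i) =
      x + b.coord i x • (z - b i) := fun x => by rw [← hdec x]
  have hdet : 1 + (b.coord i).linear (z - b i) = b.coord i z := by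
    rw [hlin]
    ring
  rw [hdet] at hTv
  -- the image is contained in the standard simplex
  have hBs : (fun x : Fin n → ℝ => x + ((b.coord i).linear x + b.coord i 0) • (z - b i)) ''
      convexHull ℝ (range b) ⊆ stdS n := by
    rintro _ ⟨x, hx, rfl⟩
    simp only []
    rw [hTe]
    have hx0 : ∀ j, 0 ≤ b.coord j x := by
      rw [hA] at hx
      exact hx
    have h1 : x + b.coord i x • (z - b i) =
        ∑ j, b.coord j x • (b j + if j = i then (z - b i) else 0) := by
      simp only [smul_add, Finset.sum_add_distrib, smul_ite, smul_zero,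
        Finset.sum_ite_eq', Finset.mem_univ, if_true]
      rw [b.linear_combination_coord_eq_self x]
    rw [h1]
    refine (simp_convex n).sum_mem (fun j _ => hx0 j) (b.sum_coord_apply_eq_one x) ?_
    intro j _
    by_cases hj : j = i
    · subst hj
      rw [if_pos rfl, add_sub_cancel]
      exact hz
    · rw [if_neg hj, add_zero]
      exact hsub (subset_convexHull ℝ _ ⟨j, rfl⟩)
  -- the intersection is a null set
  have hnull : AEDisjoint volume (convexHull ℝ (range b))
      ((fun x : Fin n → ℝ => x + ((b.coord i).linear x + b.coord i 0) • (z - b i)) ''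
      convexHull ℝ (range b)) := by
    refine measure_mono_null ?_ (Close_null (b.coord i) (p := b i) (by rw [hi1]; exact one_ne_zero))
    rintro y ⟨hy, x, hx, rfl⟩
    have hx0 : 0 ≤ b.coord i x := by
      rw [hA] at hx
      exact hx i
    have hy0 : 0 ≤ b.coord i (x + ((b.coord i).linear x + b.coord i 0) • (z - b i)) := by
      rw [hA] at hy
      exact hy i
    have h2 : b.coord i (x + ((b.coord i).linear x + b.coord i 0) • (z - b i)) =
        b.coord i z * b.coord i x := by
      rw [hTe, hdec (x + b.coord i x • (z - b i)), map_add, map_smul, hlin, smul_eq_mul]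
      have := hdec x
      linear_combination this.symm
    have h3 : b.coord i z * b.coord i x ≤ 0 := mul_nonpos_of_nonpos_of_nonneg h0.le hx0
    change b.coord i (x + ((b.coord i).linear x + b.coord i 0) • (z - b i)) = 0
    rw [h2] at hy0 ⊢
    linarith
  have hBm := (hAc.image hTc).measurableSet
  have hu := measure_union₀ hBm.nullMeasurableSet hnull
  rw [hTv] at hu
  have hle : volume (convexHull ℝ (range b)) +
      ENNReal.ofReal |b.coord i z| * volume (convexHull ℝ (range b)) ≤ volume (stdS n) := by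
    rw [← hu]
    exact measure_mono (union_subset hsub hBs)
  have hfin : volume (stdS n) ≠ ⊤ := (stdS_compact n).measure_lt_top.ne
  have hVfin : volume (convexHull ℝ (range b)) ≠ ⊤ := hAc.measure_lt_top.ne
  have hVpos : 0 < (volume (convexHull ℝ (range b))).toReal := by
    refine ENNReal.toReal_pos ?_ hVfin
    have hint : (interior (convexHull ℝ (range b))).Nonempty := by
      rw [interior_convexHull_nonempty_iff_affineSpan_eq_top]
      exact b.tot
    exact (Measure.measure_pos_of_nonempty_interior volume hint).ne'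
  have hle' := ENNReal.toReal_mono hfin hle
  rw [ENNReal.toReal_add hVfin (ENNReal.mul_ne_top ENNReal.ofReal_ne_top hVfin),
    ENNReal.toReal_mul, ENNReal.toReal_ofReal (abs_nonneg _), abs_of_neg h0] at hle'
  have h5 : (-(b.coord i z)) * (volume (convexHull ℝ (range b))).toReal ≤
      ε * (volume (convexHull ℝ (range b))).toReal := by linarith
  have h6 := le_of_mul_le_mul_right h5 hVpos
  linarith

theorem near_of_volume (hn : 1 ≤ n) {w : Fin (n + 1) → (Fin n → ℝ)}
    (hw : AffineIndependent ℝ w) (hsub : convexHull ℝ (range w) ⊆ stdS n) {ε η : ℝ}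
    (hε : 0 ≤ ε) (hvol : (volume (stdS n)).toReal ≤
      (1 + ε) * (volume (convexHull ℝ (range w))).toReal)
    (hη : 0 < η) (hη1 : η ≤ 1) (hεη : ε * (4 * ((n : ℝ) + 1)) ≤ η)
    {x : Fin n → ℝ} (hx : x ∈ stdS n) :
    ctr n + (1 + η)⁻¹ • (x - ctr n) ∈ convexHull ℝ (range w) := by
  have htot : affineSpan ℝ (range w) = ⊤ := by
    rw [hw.affineSpan_eq_top_iff_card_eq_finrank_add_one]
    simp
  let b : AffineBasis (Fin (n + 1)) ℝ (Fin n → ℝ) := ⟨w, hw, htot⟩
  have hb : ⇑b = w := rfl
  rw [← hb, b.convexHull_eq_nonneg_coord]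
  intro i
  have hge := fun (z : Fin n → ℝ) (hz : z ∈ stdS n) => bary_ge b hb hsub hε hvol hz i
  have hdec : ∀ x, b.coord i x = (b.coord i).linear x + b.coord i 0 :=
    fun x => congrFun (b.coord i).decomp x
  have hlin := LinearMap.pi_apply_eq_sum_univ (b.coord i).linear
  have hexp : ∀ y : Fin n → ℝ, b.coord i y =
      ∑ k, y k * b.coord i (fun j => if k = j then 1 else 0) + (1 - ∑ k, y k) * b.coord i 0 := by
    intro y
    have h1 : ∀ k, y k * b.coord i (fun j => if k = j then 1 else 0) =
        y k • (b.coord i).linear (fun j => if k = j then 1 else 0) + y k * b.coord i 0 := by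
      intro k
      rw [hdec (fun j => if k = j then 1 else 0), smul_eq_mul]
      ring
    rw [Finset.sum_congr rfl fun k _ => h1 k, Finset.sum_add_distrib, ← hlin y,
      ← Finset.sum_mul, hdec y]
    ring
  have he : ∀ k : Fin n, (fun j => if k = j then (1 : ℝ) else 0) ∈ stdS n := by
    intro k
    refine ⟨fun j => ?_, ?_⟩
    · simp only []
      split_ifs
      · exact zero_le_one
      · exact le_refl _
    · rw [Finset.sum_ite_eq, if_pos (Finset.mem_univ k)]
  have h0 : (0 : Fin n → ℝ) ∈ stdS n := ⟨fun _ => le_refl _, by simp⟩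
  have hwi : w i ∈ stdS n := hsub (subset_convexHull ℝ _ ⟨i, rfl⟩)
  have hcn : (0 : ℝ) < (n : ℝ) + 1 := by positivity
  have hsum : 1 - n * ε ≤ ∑ k : Fin n, b.coord i (fun j => if k = j then 1 else 0) +
      b.coord i 0 := by
    have h1 : b.coord i (w i) = 1 := b.coord_apply_eq i
    have h2 := hexp (w i)
    rw [h1] at h2
    have h3 : ∀ k, w i k * (b.coord i (fun j => if k = j then 1 else 0) + ε) ≤
        b.coord i (fun j => if k = j then 1 else 0) + ε := by
      intro k
      have h4 : 0 ≤ b.coord i (fun j => if k = j then 1 else 0) + ε := by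
        linarith [hge _ (he k)]
      have h5 : w i k ≤ 1 :=
        le_trans (Finset.single_le_sum (f := w i) (fun j _ => hwi.1 j) (Finset.mem_univ k)) hwi.2
      exact mul_le_of_le_one_left h4 h5
    have h6 : (1 - ∑ k, w i k) * (b.coord i 0 + ε) ≤ b.coord i 0 + ε := by
      have h4 : 0 ≤ b.coord i 0 + ε := by linarith [hge _ h0]
      have h5 : 0 ≤ ∑ k, w i k := Finset.sum_nonneg fun k _ => hwi.1 k
      exact mul_le_of_le_one_left h4 (by linarith)
    have h7 := Finset.sum_le_sum (s := Finset.univ) fun (k : Fin n) _ => h3 k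
    rw [Finset.sum_add_distrib] at h7
    simp only [mul_add, Finset.sum_add_distrib, Finset.sum_const, Finset.card_univ,
      Fintype.card_fin, nsmul_eq_mul, ← Finset.sum_mul] at h7
    nlinarith [h2, h6, h7]
  have hctr : b.coord i (ctr n) * ((n : ℝ) + 1) =
      ∑ k : Fin n, b.coord i (fun j => if k = j then 1 else 0) + b.coord i 0 := by
    rw [hexp (ctr n)]
    simp only [ctr, ← Finset.mul_sum, Finset.sum_const, Finset.card_univ, Fintype.card_fin,
      nsmul_eq_mul]
    field_simp
    ring
  have hx' := hge x hx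
  have hs : (1 + η)⁻¹ * (1 + η) = 1 := inv_mul_cancel₀ (by positivity)
  have hp : b.coord i (ctr n + (1 + η)⁻¹ • (x - ctr n)) * ((1 + η) * ((n : ℝ) + 1)) =
      η * (b.coord i (ctr n) * ((n : ℝ) + 1)) + b.coord i x * ((n : ℝ) + 1) := by
    rw [hdec (ctr n + (1 + η)⁻¹ • (x - ctr n)), map_add, map_smul, map_sub, smul_eq_mul,
      hdec (ctr n), hdec x]
    linear_combination ((b.coord i).linear x - (b.coord i).linear (ctr n)) * ((n : ℝ) + 1) * hs
  have hn0 : (0 : ℝ) ≤ n := Nat.cast_nonneg n
  have hmain : 0 ≤ b.coord i (ctr n + (1 + η)⁻¹ • (x - ctr n)) * ((1 + η) * ((n : ℝ) + 1)) := by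
    rw [hp, hctr]
    have h8 : ε * ((n : ℝ) + 1) ≤ η / 4 := by linarith
    have h9 : (n : ℝ) * ε ≤ 1 / 4 := by nlinarith
    have h10 : η * (3 / 4) ≤ η * (∑ k : Fin n, b.coord i (fun j => if k = j then 1 else 0) +
        b.coord i 0) := mul_le_mul_of_nonneg_left (by linarith) hη.le
    have h11 : -ε * ((n : ℝ) + 1) ≤ b.coord i x * ((n : ℝ) + 1) :=
      mul_le_mul_of_nonneg_right hx' hcn.le
    linarith
  exact nonneg_of_mul_nonneg_left hmain (by positivity)

end Vale.Agent.P254U
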