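import Vale.Agent.Lib.P254U.Simp

/-!
P254U/LM/Defs: the simplex is a strict local maximizer of the isotropic constant.

Notation: `stdS n = {x ≥ 0, Σ x ≤ 1}`, barycentric coordinates `x_1, ..., x_n, 1 - Σ x`,
`QQ x` = sum of the squares of the `n+1` barycentric coordinates, `ctr n` = centroid.

PROOF.  (1) `AMGM`: if `K ⊆ Δ = stdS n` and `∫_(Δ \ K) ((n+1) QQ - 2) ≥ 0`, `|Δ \ K| > 0`, then
`L_K < L_Δ`.  Indeed `(x-o)ᵀ Σ_Δ⁻¹ (x-o) = (n+1)(n+2) (QQ x - 1/(n+1))`, so by AM-GM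
`Rat K ≤ ((1/n) E_K[(n+2)((n+1) QQ - 1)])^n (|Δ|/|K|)²`, and
`(n+2) ∫_Δ ((n+1) QQ - 1) = n |Δ|`; use Bernoulli.
(2) `CI`: for convex `h` on `ℝ^d`: `∫_(stdS d) h ((d+2) QQ - 2) ≥ 0`, and
`≥ 2/((d+1)(d+3)) ∫ h` if `h ≥ 0`, `h (ctr) = 0`.  Induction on `d` by decomposing `stdS d` into
the `d+1` cones with apex `ctr d` over the facets.
(3) `MainC`, `MainA`: if `K ⊆ Δ` contains the centroids of the facets of `Δ` and
`o + (1+η)⁻¹ (Δ - o)` with `η = 4/(n(n+1)(n+2)(n+3))`, then `∫_(Δ \ K) ((n+1) QQ - 2) ≥ 0`: in the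
cone over a facet write `x = o + τ (y - o)`, `K = {τ (1 + κ(y)) ≤ 1}`, `κ` = gauge minus one, convex,
`0 ≤ κ ≤ η`, `κ` vanishes at the centroid of the facet.
(4) `Circ`: a convex body has a circumscribed simplex (of minimal volume) whose facet centroids
belong to the body.  (5) `Close`: simplices `S₁ ⊆ K ⊆ S'` with `|S'| ≤ (1+ε)|S₁|` are close.
(6) `LocalMax`.
-/

open MeasureTheory Set

namespace Vale.Agent.P254U

variable {n : ℕ}

/-- sum of the squares of the barycentric coordinates with respect to the standard simplex -/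
def QQ (x : Fin n → ℝ) : ℝ := ∑ i, x i ^ 2 + (1 - ∑ i, x i) ^ 2

/-- centroid of the standard simplex -/
noncomputable def ctr (n : ℕ) : Fin n → ℝ := fun _ => 1 / ((n : ℝ) + 1)

/-- the point `o + τ ((0, y) - o)`, `o = ctr (n+1)` -/
noncomputable def ray (τ : ℝ) (y : Fin n → ℝ) : Fin (n + 1) → ℝ :=
  Fin.cons ((1 - τ) / ((n : ℝ) + 2)) (fun j => τ * y j + (1 - τ) / ((n : ℝ) + 2))

/-- the points of the standard simplex whose first coordinate is the smallest barycentric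
coordinate: the cone with apex `ctr (n+1)` over the facet `x 0 = 0` -/
def chamber (n : ℕ) : Set (Fin (n + 1) → ℝ) :=
  {x | x ∈ stdS (n + 1) ∧ (∀ j, x 0 ≤ x j) ∧ x 0 ≤ 1 - ∑ i, x i}

/-- the affine involutions exchanging the first barycentric coordinate with another one -/
def sig : Option (Fin (n + 1)) → (Fin (n + 1) → ℝ) → (Fin (n + 1) → ℝ)
  | none, x => Fin.cons (1 - ∑ i, x i) (fun j : Fin n => x j.succ)
  | some k, x => fun j => x (Equiv.swap 0 k j)

end Vale.Agent.P254U
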