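import Vale.Agent.Lib.P254U.LM.MainA
import Vale.Agent.Lib.P254U.LM.AMGM
import Vale.Agent.Lib.P254U.LM.CircB
import Vale.Agent.Lib.P254U.LM.Close
import Vale.Agent.Lib.P254U.FS.AffSIC
import Vale.Agent.Lib.P254U.FS.Join

/-!
P254U/LM/LocalMax: the simplex is a strict local maximizer of the isotropic constant.

`n = 1`: `sic_one`.  `n = m + 1`, `m ≥ 1`: take `v` from `exists_min_simplex` (for the vertices of
`S₂`) and an affine equivalence `T` with `T v_0 = 0`, `T v_i = e_i` (so `T '' conv v = stdS n`);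
`K' = T '' K`, `S₁' = T '' S₁ = conv w`.  `vol (stdS n) ≤ (1+ε) vol (conv w)` (ratios of volumes
are invariant).  `near_of_volume` with `η = 4 (n+1) ε`, `centroid_mem_of_min`: `K'` satisfies `Near η`.
`main_ineq`; if `vol (stdS n \ K') > 0` then `Rat K' < 1` by `rat_lt_of_integral`, so `SIC K'`
(`sic_iff`); otherwise `K' = stdS n` (closed, and every relatively open subset of `stdS n` has
positive measure) is a simplex.  `sic_affine` for `T⁻¹`.
-/

open MeasureTheory Set

namespace Vale.Agent.P254U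

variable {n : ℕ}

noncomputable def epsn (n : ℕ) : ℝ :=
  1 / ((n : ℝ) * ((n : ℝ) + 1) ^ 2 * ((n : ℝ) + 2) * ((n : ℝ) + 3))

private theorem LocalMax_simp (n : ℕ) : IsSimplex (stdS n) := by
  obtain ⟨b⟩ : Nonempty (AffineBasis (Fin (n + 1)) ℝ (Fin n → ℝ)) :=
    AffineBasis.exists_affineBasis_of_finiteDimensional (by simp)
  obtain ⟨T, hT⟩ := simplex_affine n b.ind
  have h1 : IsSimplex (T '' stdS n) := ⟨b, b.ind, hT⟩
  have h2 := h1.affine T.symm
  rw [image_image] at h2
  simpa using h2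

private theorem LocalMax_T {v : Fin (n + 1) → (Fin n → ℝ)} (hv : AffineIndependent ℝ v) :
    ∃ T : (Fin n → ℝ) ≃ᵃ[ℝ] (Fin n → ℝ), T '' stdS n = convexHull ℝ (range v) ∧
      ∀ x : Fin n → ℝ, T x =
        ∑ i : Fin (n + 1), (Fin.cons (1 - ∑ i, x i) x : Fin (n + 1) → ℝ) i • v i := by
  have h1 := (affineIndependent_iff_linearIndependent_vsub ℝ v 0).1 hv
  have h2 : LinearIndependent ℝ (fun i : Fin n => v i.succ - v 0) := by
    have h3 := h1.comp (fun i : Fin n => (⟨i.succ, Fin.succ_ne_zero i⟩ : {x : Fin (n + 1) // x ≠ 0}))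
      (by
        intro a b hab
        exact Fin.succ_injective _ (congrArg Subtype.val hab))
    exact h3
  have h2s : ⊤ ≤ Submodule.span ℝ (range (fun i : Fin n => v i.succ - v 0)) := by
    rw [h2.span_eq_top_of_card_eq_finrank' (by simp)]
  let b := Module.Basis.mk h2 h2s
  have hb : ∀ i, b i = v i.succ - v 0 := by
    intro i
    exact Module.Basis.mk_apply h2 h2s i
  let T : (Fin n → ℝ) ≃ᵃ[ℝ] (Fin n → ℝ) :=
    (b.equivFun.symm.toAffineEquiv).trans (AffineEquiv.constVAdd ℝ (Fin n → ℝ) (v 0))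
  have hT : ∀ x, T x = v 0 + ∑ i, x i • (v i.succ - v 0) := by
    intro x
    change v 0 + b.equivFun.symm x = _
    rw [Module.Basis.equivFun_symm_apply]
    simp only [hb]
  have hT' : ∀ x : Fin n → ℝ, T x =
      ∑ i : Fin (n + 1), (Fin.cons (1 - ∑ i, x i) x : Fin (n + 1) → ℝ) i • v i := by
    intro x
    rw [hT, Fin.sum_univ_succ]
    simp only [Fin.cons_zero, Fin.cons_succ, smul_sub, Finset.sum_sub_distrib, sub_smul,
      one_smul, ← Finset.sum_smul]
    abel
  refine ⟨T, ?_, hT'⟩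
  apply Set.Subset.antisymm
  · rintro _ ⟨x, hx, rfl⟩
    rw [hT']
    refine (convex_convexHull ℝ (range v)).sum_mem ?_ ?_ ?_
    · intro i _
      refine Fin.cases ?_ (fun k => ?_) i
      · simp only [Fin.cons_zero]
        linarith [hx.2]
      · simp only [Fin.cons_succ]
        exact hx.1 k
    · rw [Fin.sum_univ_succ]
      simp
    · intro i _
      exact subset_convexHull ℝ _ ⟨i, rfl⟩
  · refine convexHull_min ?_ ?_
    · rintro _ ⟨i, rfl⟩
      refine Fin.cases ?_ (fun k => ?_) i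
      · refine ⟨0, ⟨fun _ => le_refl _, by simp⟩, ?_⟩
        rw [hT]
        simp
      · refine ⟨Pi.single k 1, ⟨fun j => ?_, ?_⟩, ?_⟩
        · by_cases hj : j = k
          · subst hj; simp
          · simp [Pi.single_eq_of_ne hj]
        · rw [Finset.sum_pi_single']
          simp
        · rw [hT, Finset.sum_eq_single k]
          · simp
          · intro j _ hj
            simp [Pi.single_eq_of_ne hj]
          · intro h
            exact absurd (Finset.mem_univ k) h
    · exact (simp_convex n).affine_image (T : (Fin n → ℝ) →ᵃ[ℝ] (Fin n → ℝ))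

private theorem LocalMax_vol (T : (Fin n → ℝ) ≃ᵃ[ℝ] (Fin n → ℝ)) :
    ∃ c : ℝ, 0 < c ∧ ∀ A : Set (Fin n → ℝ), (volume (T '' A)).toReal = c * (volume A).toReal := by
  have hT : ∀ x, T x = T.linear x + T 0 := by
    intro x
    have h := T.map_vadd 0 x
    simp only [vadd_eq_add, add_zero] at h
    exact h
  refine ⟨|LinearMap.det (T.linear : (Fin n → ℝ) →ₗ[ℝ] (Fin n → ℝ))|,
    abs_pos.2 (LinearEquiv.isUnit_det' T.linear).ne_zero, fun A => ?_⟩
  have h1 : T '' A = (fun y => y + (-T 0)) ⁻¹'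
      ((T.linear : (Fin n → ℝ) →ₗ[ℝ] (Fin n → ℝ)) '' A) := by
    ext y
    constructor
    · rintro ⟨x, hx, rfl⟩
      refine ⟨x, hx, ?_⟩
      rw [hT x]
      exact (add_neg_cancel_right _ _).symm
    · rintro ⟨x, hx, hxy⟩
      refine ⟨x, hx, ?_⟩
      have h2 : T.linear x = y + -T 0 := hxy
      rw [hT x, h2, neg_add_cancel_right]
  rw [h1, measure_preimage_add_right, Measure.addHaar_image_linearMap, ENNReal.toReal_mul,
    ENNReal.toReal_ofReal (abs_nonneg _)]

theorem local_max_norm (hn : 1 ≤ n) {K : Set (Fin (n + 1) → ℝ)} {η : ℝ} (hη : 0 < η)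
    (hη1 : η ≤ 4 / (((n : ℝ) + 1) * ((n : ℝ) + 2) * ((n : ℝ) + 3) * ((n : ℝ) + 4)))
    (hK : ConvBody (n + 1) K) (h : Near η K) : SIC K := by
  have h1 := main_ineq hn hη hη1 h
  have hn1 : 1 ≤ n + 1 := by omega
  by_cases hpos : 0 < (volume (stdS (n + 1) \ K)).toReal
  · have h2 := rat_lt_of_integral hn1 hK h.sub hpos (by
      have e : ((n + 1 : ℕ) : ℝ) + 1 = (n : ℝ) + 2 := by
        push_cast
        ring
      rw [e]
      exact h1)
    exact (sic_iff hn1 hK).2 ⟨h2.le, fun h3 => absurd h3 h2.ne⟩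
  · have hfin : volume (stdS (n + 1) \ K) ≠ ⊤ :=
      ((measure_mono sdiff_subset).trans_lt (stdS_compact (n + 1)).measure_lt_top).ne
    have hz : volume (stdS (n + 1) \ K) = 0 := by
      by_contra hne
      exact hpos (ENNReal.toReal_pos hne hfin)
    have hKS : K = stdS (n + 1) := by
      refine Subset.antisymm h.sub fun x hx => ?_
      by_contra hxK
      have hint : (interior (stdS (n + 1))).Nonempty :=
        hK.interior_nonempty.mono (interior_mono h.sub)
      have hcl := (simp_convex (n + 1)).closure_interior_eq_closure_of_nonempty_interior hint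
      have hx' : x ∈ closure (interior (stdS (n + 1))) := by
        rw [hcl]
        exact subset_closure hx
      have ho : IsOpen Kᶜ := hK.compact.isClosed.isOpen_compl
      obtain ⟨y, hy1, hy2⟩ := mem_closure_iff.1 hx' Kᶜ ho hxK
      have hopen : IsOpen (Kᶜ ∩ interior (stdS (n + 1))) := ho.inter isOpen_interior
      have hp := hopen.measure_pos volume ⟨y, hy1, hy2⟩
      have hle : volume (Kᶜ ∩ interior (stdS (n + 1))) ≤ volume (stdS (n + 1) \ K) :=
        measure_mono fun z hz => ⟨interior_subset hz.2, hz.1⟩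
      rw [hz] at hle
      exact absurd hle (not_le.2 hp)
    rw [hKS]
    exact sic_simplex hn1 (LocalMax_simp (n + 1))

private theorem LocalMax_sig (m : ℕ) (v : Fin (m + 1 + 1) → (Fin (m + 1) → ℝ))
    (c : Option (Fin (m + 1))) :
    ∃ k : Fin (m + 1 + 1),
      ∑ i : Fin (m + 1 + 1), (Fin.cons (1 - ∑ i, sig c (Fin.cons 0 (ctr m)) i)
        (sig c (Fin.cons 0 (ctr m))) : Fin (m + 1 + 1) → ℝ) i • v i =
      (1 / ((m + 1 : ℕ) : ℝ)) • ∑ j ∈ Finset.univ.erase k, v j := by
  have hm : ((m : ℝ) + 1) ≠ 0 := by positivity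
  have hs : ∑ i, (Fin.cons 0 (ctr m) : Fin (m + 1) → ℝ) i = (m : ℝ) / ((m : ℝ) + 1) := by
    rw [Fin.sum_univ_succ]
    simp only [Fin.cons_zero, Fin.cons_succ, ctr, Finset.sum_const, Finset.card_univ,
      Fintype.card_fin, nsmul_eq_mul]
    field_simp
    ring
  have key : ∀ (x : Fin (m + 1) → ℝ) (k : Fin (m + 1 + 1)),
      (∀ i, (Fin.cons (1 - ∑ i, x i) x : Fin (m + 1 + 1) → ℝ) i =
        if i = k then 0 else 1 / ((m + 1 : ℕ) : ℝ)) →
      ∑ i : Fin (m + 1 + 1), (Fin.cons (1 - ∑ i, x i) x : Fin (m + 1 + 1) → ℝ) i • v i =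
        (1 / ((m + 1 : ℕ) : ℝ)) • ∑ j ∈ Finset.univ.erase k, v j := by
    intro x k h
    simp only [h]
    rw [Finset.smul_sum, ← Finset.add_sum_erase Finset.univ _ (Finset.mem_univ k), if_pos rfl,
      zero_smul, zero_add]
    refine Finset.sum_congr rfl fun i hi => ?_
    rw [if_neg (Finset.ne_of_mem_erase hi)]
  rcases c with _ | k
  · refine ⟨0, key _ 0 ?_⟩
    have hx : ∀ i, sig none (Fin.cons 0 (ctr m) : Fin (m + 1) → ℝ) i =
        1 / ((m + 1 : ℕ) : ℝ) := by
      intro i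
      simp only [sig, hs]
      refine Fin.cases ?_ (fun j => ?_) i
      · rw [Fin.cons_zero]
        push_cast
        field_simp
        ring
      · rw [Fin.cons_succ, Fin.cons_succ]
        simp [ctr]
    intro i
    refine Fin.cases ?_ (fun j => ?_) i
    · rw [Fin.cons_zero, if_pos rfl]
      simp only [hx, Finset.sum_const, Finset.card_univ, Fintype.card_fin, nsmul_eq_mul]
      push_cast
      field_simp
      ring
    · rw [Fin.cons_succ, if_neg (Fin.succ_ne_zero j), hx]
  · refine ⟨k.succ, key _ k.succ ?_⟩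
    have hx : ∀ i, sig (some k) (Fin.cons 0 (ctr m) : Fin (m + 1) → ℝ) i =
        if i = k then 0 else 1 / ((m + 1 : ℕ) : ℝ) := by
      intro i
      simp only [sig]
      split_ifs with hi
      · rw [hi, Equiv.swap_apply_right, Fin.cons_zero]
      · have h0 : Equiv.swap 0 k i ≠ 0 := by
          intro h0
          apply hi
          have := congrArg (Equiv.swap 0 k) h0
          rwa [Equiv.swap_apply_self, Equiv.swap_apply_left] at this
        obtain ⟨j, hj⟩ := Fin.exists_succ_eq.2 h0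
        rw [← hj, Fin.cons_succ]
        simp [ctr]
    intro i
    refine Fin.cases ?_ (fun j => ?_) i
    · rw [Fin.cons_zero, if_neg (Fin.succ_ne_zero k).symm]
      have h1 : ∑ i, sig (some k) (Fin.cons 0 (ctr m) : Fin (m + 1) → ℝ) i =
          (m : ℝ) / ((m : ℝ) + 1) := by
        rw [← hs]
        exact Equiv.sum_comp (Equiv.swap 0 k) (Fin.cons 0 (ctr m) : Fin (m + 1) → ℝ)
      rw [h1]
      push_cast
      field_simp
      ring
    · rw [Fin.cons_succ, hx]
      by_cases hj : j = k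
      · rw [if_pos hj, if_pos (congrArg Fin.succ hj)]
      · rw [if_neg hj, if_neg (fun h => hj (Fin.succ_injective _ h))]

theorem local_max (hn : 1 ≤ n) {K S₁ S₂ : Set (Fin n → ℝ)} (hK : ConvBody n K)
    (h1 : IsSimplex S₁) (h2 : IsSimplex S₂) (h12 : S₁ ⊆ K) (h23 : K ⊆ S₂)
    (hvol : (volume S₂).toReal ≤ (1 + epsn n) * (volume S₁).toReal) : SIC K := by
  rcases Nat.lt_or_ge n 2 with h2n | h2n
  · obtain rfl : n = 1 := by omega
    exact sic_simplex hn (sic_one hK)
  obtain ⟨m, rfl⟩ : ∃ m, n = m + 1 := ⟨n - 1, by omega⟩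
  have hm : 1 ≤ m := by omega
  obtain ⟨v1, hv1, rfl⟩ := h1
  obtain ⟨v2, hv2, rfl⟩ := h2
  obtain ⟨v, hv, hKv, hvv2, hmin⟩ := exists_min_simplex hn hK h23
  obtain ⟨T, hT, hTx⟩ := LocalMax_T hv
  obtain ⟨c, hc, hcv⟩ := LocalMax_vol T
  have hTT : ∀ A : Set (Fin (m + 1) → ℝ), T '' (T.symm '' A) = A := by
    intro A
    rw [image_image]
    simp
  have hK' : ConvBody (m + 1) (T.symm '' K) := (Rat_affine hn hK T.symm).1
  have hsub' : T.symm '' K ⊆ stdS (m + 1) := by
    rintro _ ⟨x, hx, rfl⟩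
    have hx1 := hKv hx
    rw [← hT] at hx1
    obtain ⟨y, hy, hyx⟩ := hx1
    rw [← hyx, AffineEquiv.symm_apply_apply]
    exact hy
  -- the inner simplex
  have hw : AffineIndependent ℝ (fun i => T.symm (v1 i)) :=
    hv1.map' (T.symm : (Fin (m + 1) → ℝ) →ᵃ[ℝ] (Fin (m + 1) → ℝ)) T.symm.injective
  have hwc : convexHull ℝ (range fun i => T.symm (v1 i)) =
      T.symm '' convexHull ℝ (range v1) := by
    have e1 := AffineMap.image_convexHull
      (T.symm : (Fin (m + 1) → ℝ) →ᵃ[ℝ] (Fin (m + 1) → ℝ)) (range v1)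
    have e2 : range (fun i => T.symm (v1 i)) = T.symm '' range v1 := range_comp T.symm v1
    rw [e2]
    exact e1.symm
  have hwK : convexHull ℝ (range fun i => T.symm (v1 i)) ⊆ T.symm '' K := by
    rw [hwc]
    exact image_mono h12
  have hm0 : (0 : ℝ) ≤ m := Nat.cast_nonneg m
  have hε : 0 < epsn (m + 1) := by
    unfold epsn
    positivity
  have hvolw : (volume (stdS (m + 1))).toReal ≤ (1 + epsn (m + 1)) *
      (volume (convexHull ℝ (range fun i => T.symm (v1 i)))).toReal := by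
    have e1 := hcv (stdS (m + 1))
    have e2 := hcv (convexHull ℝ (range fun i => T.symm (v1 i)))
    rw [hT] at e1
    rw [hwc, hTT, ← hwc] at e2
    have e3 := hvv2.trans hvol
    rw [e1, e2] at e3
    have e4 : c * (volume (stdS (m + 1))).toReal ≤ c * ((1 + epsn (m + 1)) *
        (volume (convexHull ℝ (range fun i => T.symm (v1 i)))).toReal) := by
      linarith
    exact le_of_mul_le_mul_left e4 hc
  obtain ⟨η, hηd⟩ : ∃ η : ℝ, η = epsn (m + 1) * (4 * (((m + 1 : ℕ) : ℝ) + 1)) := ⟨_, rfl⟩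
  have hη : 0 < η := by
    rw [hηd]
    positivity
  have hηe : η = 4 / (((m : ℝ) + 1) * ((m : ℝ) + 2) * ((m : ℝ) + 3) * ((m : ℝ) + 4)) := by
    rw [hηd]
    unfold epsn
    push_cast
    field_simp
    ring
  have hη1 : η ≤ 1 := by
    rw [hηe, div_le_one (by positivity)]
    have e1 : (1 : ℝ) ≤ (m : ℝ) + 1 := by linarith
    have e2 : (1 : ℝ) ≤ (m : ℝ) + 2 := by linarith
    have e3 : (1 : ℝ) ≤ (m : ℝ) + 3 := by linarith
    have e4 : (4 : ℝ) ≤ (m : ℝ) + 4 := by linarith
    have e5 : (1 : ℝ) ≤ ((m : ℝ) + 1) * ((m : ℝ) + 2) := one_le_mul_of_one_le_of_one_le e1 e2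
    have e6 : (1 : ℝ) ≤ ((m : ℝ) + 1) * ((m : ℝ) + 2) * ((m : ℝ) + 3) :=
      one_le_mul_of_one_le_of_one_le e5 e3
    nlinarith
  have hnear : Near η (T.symm '' K) :=
    { compact := hK'.compact
      convex := hK'.convex
      sub := hsub'
      inner := fun x hx => hwK (near_of_volume hn hw (hwK.trans hsub') hε.le hvolw hη hη1
        hηd.ge hx)
      facets := fun c => by
        obtain ⟨k, hk⟩ := LocalMax_sig m v c
        have e1 := hTx (sig c (Fin.cons 0 (ctr m)))
        rw [hk] at e1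
        have e2 := centroid_mem_of_min hn hK hv hKv hmin k
        rw [← e1] at e2
        exact ⟨_, e2, T.symm_apply_apply _⟩ }
  have hfin := local_max_norm hm hη hηe.le hK' hnear
  have h3 := sic_affine hK'.compact hfin T
  rwa [hTT] at h3

end Vale.Agent.P254U
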