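import Vale.Agent.Lib.P254U.LM.MainC

/-!
P254U/LM/MainA: sum over the cones.

`Near.sig`: `sig c` is an affine involution of `stdS (n+1)` fixing `ctr (n+1)` and permuting the
centroids of the facets.  `main_ineq`: `stdS_chambers` for
`F = indicator (Kᶜ) ((n+2) QQ - 2)`; `F ∘ sig c` is the same function for `sig c ⁻¹' K` (`QQ_sig`).
-/

open MeasureTheory Set

namespace Vale.Agent.P254U

variable {n : ℕ}

theorem MainA_continuous_sig (c : Option (Fin (n + 1))) : Continuous (sig (n := n) c) := by
  cases c with
  | none =>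
    refine continuous_pi fun i => ?_
    refine Fin.cases ?_ (fun j => ?_) i
    · show Continuous fun x : Fin (n + 1) → ℝ => 1 - ∑ i, x i
      exact continuous_const.sub (continuous_finsetSum _ fun i _ => continuous_apply i)
    · show Continuous fun x : Fin (n + 1) → ℝ => x j.succ
      exact continuous_apply _
  | some k =>
    exact continuous_pi fun j => continuous_apply _

/-- the centroid of the facet `c` -/
noncomputable def MainA_p (n : ℕ) (c : Option (Fin (n + 1))) : Fin (n + 1) → ℝ :=
  fun j => if c = some j then 0 else 1 / ((n : ℝ) + 1)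

theorem MainA_sum_none : ∑ j, MainA_p n none j = 1 := by
  have h0 : (n : ℝ) + 1 ≠ 0 := by positivity
  simp only [MainA_p]
  simp
  field_simp

theorem MainA_sum_some (k : Fin (n + 1)) : ∑ j, MainA_p n (some k) j = (n : ℝ) / ((n : ℝ) + 1) := by
  have h0 : (n : ℝ) + 1 ≠ 0 := by positivity
  have h1 : ∀ j, MainA_p n (some k) j =
      1 / ((n : ℝ) + 1) - if k = j then 1 / ((n : ℝ) + 1) else 0 := by
    intro j
    simp only [MainA_p, Option.some.injEq]
    split_ifs <;> ring
  rw [Finset.sum_congr rfl fun j _ => h1 j, Finset.sum_sub_distrib]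
  simp
  field_simp
  ring

theorem MainA_q : (Fin.cons 0 (ctr n) : Fin (n + 1) → ℝ) = MainA_p n (some 0) := by
  funext i
  refine Fin.cases ?_ (fun j => ?_) i
  · simp [MainA_p]
  · simp only [Fin.cons_succ, ctr, MainA_p, Option.some.injEq]
    rw [if_neg (Fin.succ_ne_zero j).symm]

theorem MainA_sig_p (c c' : Option (Fin (n + 1))) : ∃ c'', sig c (MainA_p n c') = MainA_p n c'' := by
  have h0 : (n : ℝ) + 1 ≠ 0 := by positivity
  cases c with
  | none =>
    cases c' with
    | none =>
      refine ⟨some 0, funext fun i => ?_⟩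
      simp only [sig, MainA_sum_none]
      refine Fin.cases ?_ (fun j => ?_) i
      · simp [MainA_p]
      · simp only [Fin.cons_succ, MainA_p, Option.some.injEq]
        rw [if_neg (Fin.succ_ne_zero j).symm]
        simp
    | some l =>
      refine Fin.cases ?_ (fun l => ?_) l
      · refine ⟨none, funext fun i => ?_⟩
        simp only [sig, MainA_sum_some]
        refine Fin.cases ?_ (fun j => ?_) i
        · simp [MainA_p]
          field_simp
          ring
        · simp only [Fin.cons_succ, MainA_p, Option.some.injEq]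
          rw [if_neg (Fin.succ_ne_zero j).symm]
          simp
      · refine ⟨some l.succ, funext fun i => ?_⟩
        simp only [sig, MainA_sum_some]
        refine Fin.cases ?_ (fun j => ?_) i
        · simp only [Fin.cons_zero, MainA_p, Option.some.injEq]
          rw [if_neg (Fin.succ_ne_zero l)]
          field_simp
          ring
        · simp only [Fin.cons_succ, MainA_p]
  | some k =>
    cases c' with
    | none =>
      refine ⟨none, funext fun i => ?_⟩
      simp [sig, MainA_p]
    | some l =>
      refine ⟨some (Equiv.swap 0 k l), funext fun i => ?_⟩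
      simp only [sig, MainA_p, Option.some.injEq]
      have h1 : l = Equiv.swap 0 k i ↔ Equiv.swap 0 k l = i := by
        constructor
        · intro h
          rw [h, Equiv.swap_apply_self]
        · intro h
          rw [← h, Equiv.swap_apply_self]
      simp only [h1]

theorem MainA_aff (c : Option (Fin (n + 1))) (t : ℝ) (x : Fin (n + 1) → ℝ) :
    sig c (ctr (n + 1) + t • (x - ctr (n + 1))) =
      ctr (n + 1) + t • (sig c x - ctr (n + 1)) := by
  have h1 : ∀ y : Fin (n + 1) → ℝ,
      ctr (n + 1) + t • (y - ctr (n + 1)) = (1 - t) • ctr (n + 1) + t • y := by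
    intro y
    rw [smul_sub, sub_smul, one_smul]
    abel
  rw [h1, h1, sig_affine, sig_ctr]

theorem Near.sig {η : ℝ} {K : Set (Fin (n + 1) → ℝ)} (h : Near η K) (c : Option (Fin (n + 1))) :
    Near η (sig c ⁻¹' K) := by
  have hsub : P254U.sig c ⁻¹' K ⊆ stdS (n + 1) := by
    intro x hx
    have h1 := sig_mem (c := c) (h.sub hx)
    rwa [sig_sig] at h1
  refine ⟨?_, ?_, hsub, ?_, ?_⟩
  · have h1 : P254U.sig c ⁻¹' K = P254U.sig c '' K := by
      ext x
      constructor
      · intro hx
        exact ⟨P254U.sig c x, hx, sig_sig c x⟩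
      · rintro ⟨y, hy, rfl⟩
        show P254U.sig c (P254U.sig c y) ∈ K
        rwa [sig_sig]
    rw [h1]
    exact h.compact.image (MainA_continuous_sig c)
  · intro x hx y hy a b ha hb hab
    have h1 : a = 1 - b := by linarith
    show P254U.sig c (a • x + b • y) ∈ K
    rw [h1, sig_affine, ← h1]
    exact h.convex hx hy ha hb hab
  · intro x hx
    show P254U.sig c (ctr (n + 1) + (1 + η)⁻¹ • (x - ctr (n + 1))) ∈ K
    rw [MainA_aff]
    exact h.inner _ (sig_mem hx)
  · intro c'
    show P254U.sig c (P254U.sig c' (Fin.cons 0 (ctr n) : Fin (n + 1) → ℝ)) ∈ K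
    obtain ⟨c₁, h₁⟩ := MainA_sig_p c' (some 0)
    obtain ⟨c₂, h₂⟩ := MainA_sig_p c c₁
    rw [MainA_q, h₁, h₂]
    have hf := h.facets c₂
    rw [MainA_q] at hf
    have h₃ : ∀ c, P254U.sig c (MainA_p n (some 0)) = MainA_p n c := by
      intro c
      cases c with
      | none =>
        funext i
        have h0 : (n : ℝ) + 1 ≠ 0 := by positivity
        simp only [P254U.sig, MainA_sum_some]
        refine Fin.cases ?_ (fun j => ?_) i
        · simp [MainA_p]
          field_simp
          ring
        · simp only [Fin.cons_succ, MainA_p, Option.some.injEq]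
          rw [if_neg (Fin.succ_ne_zero j).symm]
          simp
      | some k =>
        funext i
        simp only [P254U.sig, MainA_p, Option.some.injEq]
        have h1 : 0 = Equiv.swap 0 k i ↔ k = i := by
          constructor
          · intro h
            have h2 : Equiv.swap 0 k 0 = Equiv.swap 0 k (Equiv.swap 0 k i) :=
              congrArg (Equiv.swap 0 k) h
            rw [Equiv.swap_apply_left, Equiv.swap_apply_self] at h2
            exact h2
          · intro h
            rw [← h, Equiv.swap_apply_right]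
        simp only [h1]
    rwa [h₃] at hf

theorem main_ineq (hn : 1 ≤ n) {η : ℝ} (hη : 0 < η)
    (hη1 : η ≤ 4 / (((n : ℝ) + 1) * ((n : ℝ) + 2) * ((n : ℝ) + 3) * ((n : ℝ) + 4)))
    {K : Set (Fin (n + 1) → ℝ)} (h : Near η K) :
    0 ≤ ∫ x in stdS (n + 1) \ K, (((n : ℝ) + 2) * QQ x - 2) := by
  have hKm : ∀ K' : Set (Fin (n + 1) → ℝ), Near η K' → MeasurableSet K'ᶜ := fun K' h' =>
    h'.compact.isClosed.measurableSet.compl
  have hQc : Continuous fun x : Fin (n + 1) → ℝ => ((n : ℝ) + 2) * QQ x - 2 := by
    unfold QQ
    fun_prop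
  have hint : IntegrableOn (Kᶜ.indicator fun x : Fin (n + 1) → ℝ => ((n : ℝ) + 2) * QQ x - 2)
      (stdS (n + 1)) :=
    (hQc.continuousOn.integrableOn_compact (stdS_compact (n + 1))).indicator (hKm K h)
  have h1 := stdS_chambers hint
  rw [setIntegral_indicator (hKm K h)] at h1
  rw [sdiff_eq, h1]
  refine Finset.sum_nonneg fun c _ => ?_
  have h2 : ∀ x : Fin (n + 1) → ℝ,
      (Kᶜ.indicator fun x : Fin (n + 1) → ℝ => ((n : ℝ) + 2) * QQ x - 2) (P254U.sig c x) =
      ((P254U.sig c ⁻¹' K)ᶜ.indicator fun x : Fin (n + 1) → ℝ => ((n : ℝ) + 2) * QQ x - 2) x := by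
    intro x
    by_cases hx : P254U.sig c x ∈ K
    · rw [indicator_of_notMem (by simpa using hx), indicator_of_notMem (by simpa using hx)]
    · rw [indicator_of_mem (by simpa using hx), indicator_of_mem (by simpa using hx), QQ_sig]
  simp only [h2]
  rw [setIntegral_indicator (hKm _ (h.sig c)), ← sdiff_eq]
  exact chamber_ineq hn hη hη1 (h.sig c)

end Vale.Agent.P254U
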