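import Vale.Agent.Lib.P254U.LM.MainG
import Vale.Agent.Lib.P254U.LM.CIb

/-!
P254U/LM/MainC: the integral over one cone.

Let `N = n + 1`, `o = ctr (n+1)`.  `G x = gauge {z | z + o ∈ K} (x - o)`; `x ∈ K ↔ G x ≤ 1`
(`K` compact convex, `o` an interior point by `inner`).  For `y ∈ ℝ^n` put
`g y = G (Fin.cons 0 y)`; `g` is convex on `ℝ^n`, `g ≥ 1` everywhere (the point `cons 0 y` lies on the
hyperplane `x 0 = 0` and `K ⊆ {x 0 ≥ 0}`, `o 0 > 0`), `g (ctr n) = 1` (`facets` with `c = some 0`), and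
`g ≤ 1 + η` on `stdS n` (`inner`).  `G (ray τ y) = τ g(y)` (`ray_eq`).  By `chamber_integral`
`(n+2) ∫_(chamber \ K) ((n+2) QQ - 2) = ∫_(stdS n) I(y) dy`,
`I(y) = ∫_(1/g)^1 (τ² (ψ+1) - 1) τ^n dτ = (ψ+1) A - B`, `ψ(y) = (n+2) QQ y - 2`,
`A = (1 - g^(-(n+3)))/(n+3)`, `B = (1 - g^(-(n+1)))/(n+1)`.  With `κ = g - 1 ∈ [0, η]`:
`κ - (n+4) κ²/2 ≤ A ≤ κ`, `A ≤ B ≤ κ`, `|ψ| ≤ n+1`, so `I ≥ ψ κ - (n+2)(n+4)/2 κ²`
`≥ ψ κ - (n+2)(n+4)/2 η κ`, and `CIs_all` (for `h = κ`) gives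
`∫ I ≥ (2/((n+1)(n+3)) - (n+2)(n+4) η/2) ∫ κ ≥ 0`.
-/

open MeasureTheory Set

namespace Vale.Agent.P254U

variable {n : ℕ}

theorem MainC_QQ_cont (n : ℕ) : Continuous (QQ (n := n)) := by
  unfold QQ
  fun_prop

/-- the radial integral -/
theorem MainC_inner (n : ℕ) {g ψ : ℝ} (hg : 1 ≤ g) :
    ∫ τ in (0 : ℝ)..1, (τ ^ n / ((n : ℝ) + 2)) * (if τ * g ≤ 1 then 0 else τ ^ 2 * (ψ + 1) - 1) =
      (1 / ((n : ℝ) + 2)) * ((ψ + 1) * ((1 - g⁻¹ ^ (n + 3)) / ((n : ℝ) + 3)) -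
        (1 - g⁻¹ ^ (n + 1)) / ((n : ℝ) + 1)) := by
  have hg0 : 0 < g := by linarith
  rw [intervalIntegral.integral_of_le zero_le_one]
  have h1 : ∀ τ ∈ Ioc (0 : ℝ) 1,
      (τ ^ n / ((n : ℝ) + 2)) * (if τ * g ≤ 1 then 0 else τ ^ 2 * (ψ + 1) - 1) =
      (Ioc g⁻¹ 1).indicator
        (fun τ => (1 / ((n : ℝ) + 2)) * ((ψ + 1) * τ ^ (n + 2) - τ ^ n)) τ := by
    intro τ hτ
    by_cases h : τ * g ≤ 1
    · rw [if_pos h, indicator_of_notMem, mul_zero]
      intro h'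
      have h2 : g⁻¹ * g < τ * g := mul_lt_mul_of_pos_right h'.1 hg0
      rw [inv_mul_cancel₀ hg0.ne'] at h2
      linarith
    · rw [if_neg h, indicator_of_mem]
      · ring
      · refine ⟨?_, hτ.2⟩
        have h2 : 1 * g⁻¹ < τ * g * g⁻¹ := mul_lt_mul_of_pos_right (not_le.1 h) (inv_pos.2 hg0)
        rwa [one_mul, mul_assoc, mul_inv_cancel₀ hg0.ne', mul_one] at h2
  rw [setIntegral_congr_fun measurableSet_Ioc h1, setIntegral_indicator measurableSet_Ioc]
  have h2 : Ioc (0 : ℝ) 1 ∩ Ioc g⁻¹ 1 = Ioc g⁻¹ 1 :=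
    inter_eq_right.2 (Ioc_subset_Ioc_left (inv_pos.2 hg0).le)
  rw [h2, ← intervalIntegral.integral_of_le (inv_le_one_of_one_le₀ hg),
    intervalIntegral.integral_const_mul, intervalIntegral.integral_sub,
    intervalIntegral.integral_const_mul, integral_pow, integral_pow]
  · push_cast
    ring
  · exact (Continuous.intervalIntegrable (by fun_prop) _ _)
  · exact (Continuous.intervalIntegrable (by fun_prop) _ _)

theorem chamber_ineq (hn : 1 ≤ n) {η : ℝ} (hη : 0 < η)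
    (hη1 : η ≤ 4 / (((n : ℝ) + 1) * ((n : ℝ) + 2) * ((n : ℝ) + 3) * ((n : ℝ) + 4)))
    {K : Set (Fin (n + 1) → ℝ)} (h : Near η K) :
    0 ≤ ∫ x in chamber n \ K, (((n : ℝ) + 2) * QQ x - 2) := by
  have hn0 : (0 : ℝ) ≤ n := Nat.cast_nonneg n
  obtain ⟨hgc, hg1, hg0, hgη, hgK⟩ := gfun_facts hη h
  generalize hgdef : gfun K = g at *
  have hcont : Continuous g := hgc.locallyLipschitz.continuous
  have hη' : η ≤ 1 := by
    refine hη1.trans ?_
    rw [div_le_one (by positivity)]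
    have h1 : (1 : ℝ) ≤ (n : ℝ) := by exact_mod_cast hn
    nlinarith [mul_nonneg hn0 hn0, mul_nonneg (mul_nonneg hn0 hn0) hn0,
      mul_nonneg (mul_nonneg hn0 hn0) (mul_nonneg hn0 hn0)]
  have hKm : MeasurableSet K := h.compact.isClosed.measurableSet
  have hSm : MeasurableSet (stdS n) := (stdS_compact n).isClosed.measurableSet
  have hF0 : Continuous (fun x : Fin (n + 1) → ℝ => ((n : ℝ) + 2) * QQ x - 2) := by
    have := MainC_QQ_cont (n + 1)
    fun_prop
  have hF : IntegrableOn (Kᶜ.indicator fun x => ((n : ℝ) + 2) * QQ x - 2) (stdS (n + 1)) :=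
    (hF0.continuousOn.integrableOn_compact (stdS_compact _)).indicator hKm.compl
  have e1 : ∫ x in chamber n \ K, (((n : ℝ) + 2) * QQ x - 2) =
      ∫ x in chamber n, Kᶜ.indicator (fun x => ((n : ℝ) + 2) * QQ x - 2) x := by
    rw [setIntegral_indicator hKm.compl, sdiff_eq]
  have hψc : Continuous (fun y : Fin n → ℝ => ((n : ℝ) + 2) * QQ y - 2) := by
    have := MainC_QQ_cont n
    fun_prop
  rw [e1, chamber_integral hF]
  let H : ℝ → (Fin n → ℝ) → ℝ := fun τ y => τ ^ n / ((n : ℝ) + 2) *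
    (if τ * g y ≤ 1 then 0 else τ ^ 2 * ((((n : ℝ) + 2) * QQ y - 2) + 1) - 1)
  have e2 : ∫ τ in (0 : ℝ)..1, τ ^ n / ((n : ℝ) + 2) *
      ∫ y in stdS n, Kᶜ.indicator (fun x => ((n : ℝ) + 2) * QQ x - 2) (ray τ y) =
      ∫ τ in (0 : ℝ)..1, ∫ y in stdS n, H τ y := by
    apply intervalIntegral.integral_congr
    intro τ hτ
    rw [uIcc_of_le zero_le_one] at hτ
    simp only
    rw [← integral_const_mul]
    apply setIntegral_congr_fun hSm
    intro y hy
    simp only [H]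
    congr 1
    by_cases hh : τ * g y ≤ 1
    · rw [if_pos hh, indicator_of_notMem]
      simpa using (hgK τ hτ.1 y).2 hh
    · rw [if_neg hh, indicator_of_mem, QQ_ray]
      · field_simp
        ring
      · exact fun hx => hh ((hgK τ hτ.1 y).1 hx)
  have e3 : ∫ τ in (0 : ℝ)..1, ∫ y in stdS n, H τ y = ∫ y in stdS n, ∫ τ in (0 : ℝ)..1, H τ y := by
    simp only [intervalIntegral.integral_of_le zero_le_one]
    apply integral_integral_swap
    rw [Measure.prod_restrict]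
    have hc : Continuous (fun p : ℝ × (Fin n → ℝ) => p.1 ^ n / ((n : ℝ) + 2) *
        (p.1 ^ 2 * ((((n : ℝ) + 2) * QQ p.2 - 2) + 1) - 1)) := by
      have := hψc.comp (continuous_snd (X := ℝ))
      simp only [Function.comp_def] at this
      fun_prop
    have hi : IntegrableOn (fun p : ℝ × (Fin n → ℝ) => p.1 ^ n / ((n : ℝ) + 2) *
        (p.1 ^ 2 * ((((n : ℝ) + 2) * QQ p.2 - 2) + 1) - 1)) (Ioc (0 : ℝ) 1 ×ˢ stdS n)
        ((volume : Measure ℝ).prod (volume : Measure (Fin n → ℝ))) :=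
      (hc.continuousOn.integrableOn_compact (isCompact_Icc.prod (stdS_compact n))).mono_set
        (prod_mono Ioc_subset_Icc_self subset_rfl)
    have hgp : Continuous fun p : ℝ × (Fin n → ℝ) => p.1 * g p.2 := by fun_prop
    have hm : MeasurableSet {p : ℝ × (Fin n → ℝ) | ¬ p.1 * g p.2 ≤ 1} :=
      (measurableSet_le hgp.measurable measurable_const).compl
    refine (hi.indicator hm).congr (Filter.Eventually.of_forall fun p => ?_)
    simp only [Function.uncurry, H]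
    by_cases hp : p.1 * g p.2 ≤ 1
    · rw [if_pos hp, indicator_of_notMem, mul_zero]
      simpa using hp
    · rw [if_neg hp, indicator_of_mem]
      exact hp
  rw [e2, e3]
  have e4 : ∀ y, ∫ τ in (0 : ℝ)..1, H τ y = (1 / ((n : ℝ) + 2)) *
      ((((n : ℝ) + 2) * QQ y - 2 + 1) * ((1 - (g y)⁻¹ ^ (n + 3)) / ((n : ℝ) + 3)) -
        (1 - (g y)⁻¹ ^ (n + 1)) / ((n : ℝ) + 1)) := fun y => MainC_inner n (hg1 y)
  simp only [e4]
  rw [integral_const_mul]
  refine mul_nonneg (by positivity) ?_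
  -- the function `κ = g - 1`
  have hκc : ConvexOn ℝ univ (fun y => g y - 1) := hgc.sub (concaveOn_const 1 convex_univ)
  obtain ⟨m, rfl⟩ : ∃ m, n = m + 1 := ⟨n - 1, by omega⟩
  have hCI := CIs_all m (fun y => g y - 1) hκc (fun y => sub_nonneg.2 (hg1 y))
    (by rw [hg0, sub_self])
  have hκi : IntegrableOn (fun y => g y - 1) (stdS (m + 1)) :=
    (hcont.sub continuous_const).continuousOn.integrableOn_compact (stdS_compact _)
  have hκn : 0 ≤ ∫ y in stdS (m + 1), (g y - 1) :=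
    setIntegral_nonneg hSm fun y _ => sub_nonneg.2 (hg1 y)
  have hψκ : IntegrableOn (fun y => (g y - 1) * ((((m + 1 : ℕ) : ℝ) + 2) * QQ y - 2))
      (stdS (m + 1)) :=
    ((hcont.sub continuous_const).mul hψc).continuousOn.integrableOn_compact (stdS_compact _)
  have hginv : Continuous (fun y => (g y)⁻¹) := by
    refine hcont.inv₀ fun y => ?_
    have := hg1 y
    linarith
  calc (0 : ℝ) ≤ (∫ y in stdS (m + 1), (g y - 1) * ((((m + 1 : ℕ) : ℝ) + 2) * QQ y - 2)) -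
        (((((m + 1 : ℕ) : ℝ) + 2) * (((m + 1 : ℕ) : ℝ) + 4)) / 2 * η) *
          ∫ y in stdS (m + 1), (g y - 1) := by
        have h2 : (((((m + 1 : ℕ) : ℝ) + 2) * (((m + 1 : ℕ) : ℝ) + 4)) / 2 * η) ≤
            2 / ((((m + 1 : ℕ) : ℝ) + 1) * (((m + 1 : ℕ) : ℝ) + 3)) := by
          rw [le_div_iff₀ (by positivity)]
          rw [le_div_iff₀ (by positivity)] at hη1
          linarith
        have h3 := mul_le_mul_of_nonneg_right h2 hκn
        linarith
    _ = ∫ y in stdS (m + 1), ((g y - 1) * ((((m + 1 : ℕ) : ℝ) + 2) * QQ y - 2) -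
        (((((m + 1 : ℕ) : ℝ) + 2) * (((m + 1 : ℕ) : ℝ) + 4)) / 2 * η) * (g y - 1)) := by
        rw [integral_sub hψκ (hκi.const_mul _), integral_const_mul]
    _ ≤ _ := by
        refine setIntegral_mono_on (hψκ.sub (hκi.const_mul _)) ?_ hSm ?_
        · refine ContinuousOn.integrableOn_compact (stdS_compact _) ?_
          refine Continuous.continuousOn ?_
          fun_prop
        · intro y hy
          have hb := radial_bound (m + 1) (κ := g y - 1)
            (ψ := (((m + 1 : ℕ) : ℝ) + 2) * QQ y - 2) (sub_nonneg.2 (hg1 y))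
            (by linarith [hgη y hy]) (QQ_bounds hy)
          rw [show 1 + (g y - 1) = g y by ring] at hb
          refine le_trans ?_ hb
          have hk : (g y - 1) ^ 2 ≤ η * (g y - 1) := by
            have h1 := hgη y hy
            have h2 := hg1 y
            nlinarith
          have hc0 : 0 ≤ ((((m + 1 : ℕ) : ℝ) + 2) * (((m + 1 : ℕ) : ℝ) + 4)) / 2 := by positivity
          have := mul_le_mul_of_nonneg_left hk hc0
          linarith

end Vale.Agent.P254U
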