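import Vale.Agent.Lib.P254U.LM.ChamA

/-!
P254U/LM/MainG: gauge and elementary bounds (the integral over one cone is in MainC).

Let `N = n + 1`, `o = ctr (n+1)`.  `G x = gauge {z | z + o ∈ K} (x - o)`; `x ∈ K ↔ G x ≤ 1`
(`K` compact convex, `o` an interior point by `inner`).  For `y ∈ ℝ^n` put
`g y = G (Fin.cons 0 y)`; `g` is convex on `ℝ^n`, `g ≥ 1` everywhere (the point `cons 0 y` lies on the
hyperplane `x 0 = 0` and `K ⊆ {x 0 ≥ 0}`, `o 0 > 0`), `g (ctr n) = 1` (`facets` with `c = some 0`), and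
`g ≤ 1 + η` on `stdS n` (`inner`).  `G (ray τ y) = τ g(y)` (`ray_eq`).  By `chamber_integral`
`(n+2) ∫_(chamber \ K) ((n+2) QQ - 2) = ∫_(stdS n) I(y) dy`,
`I(y) = ∫_(1/g)^1 (τ² (ψ+1) - 1) τ^n dτ = (ψ+1) A - B`, `ψ(y) = (n+2) QQ y - 2`,
`A = (1 - g^(-(n+3)))/(n+3)`, `B = (1 - g^(-(n+1)))/(n+1)`.  With `κ = g - 1 ∈ [0, η]`:
`κ - (n+4) κ²/2 ≤ A ≤ κ`, `A ≤ B ≤ κ`, `|ψ| ≤ n+1`, so `I ≥ ψ κ - (n+2)(n+4)/2 κ²`
`≥ ψ κ - (n+2)(n+4)/2 η κ`, and `CIs_all` (for `h = κ`) gives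
`∫ I ≥ (2/((n+1)(n+3)) - (n+2)(n+4) η/2) ∫ κ ≥ 0`.
-/

open MeasureTheory Set

namespace Vale.Agent.P254U

variable {n : ℕ}

structure Near (η : ℝ) (K : Set (Fin (n + 1) → ℝ)) : Prop where
  compact : IsCompact K
  convex : Convex ℝ K
  sub : K ⊆ stdS (n + 1)
  inner : ∀ x ∈ stdS (n + 1), ctr (n + 1) + (1 + η)⁻¹ • (x - ctr (n + 1)) ∈ K
  facets : ∀ c : Option (Fin (n + 1)), sig c (Fin.cons 0 (ctr n) : Fin (n + 1) → ℝ) ∈ K

private theorem MainG_pow (m : ℕ) {κ : ℝ} (h0 : 0 ≤ κ) :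
    (1 + κ)⁻¹ ^ m ≤ 1 - m * κ + m * (m + 1) / 2 * κ ^ 2 := by
  have hp : 0 < 1 + κ := by linarith
  induction m with
  | zero => simp
  | succ m ih =>
    rw [pow_succ, ← div_eq_mul_inv, div_le_iff₀ hp]
    refine ih.trans ?_
    push_cast
    have h3 : 0 ≤ ((m : ℝ) + 1) * ((m : ℝ) + 2) / 2 * κ ^ 3 := by positivity
    nlinarith

private theorem MainG_bern (m : ℕ) {κ : ℝ} (h0 : 0 ≤ κ) : 1 - (1 + κ)⁻¹ ^ m ≤ m * κ := by
  have hp : 0 < 1 + κ := by linarith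
  have h1 : (1 + κ)⁻¹ = 1 - κ * (1 + κ)⁻¹ := by
    field_simp
    ring
  have h2 : (1 + κ)⁻¹ ≤ 1 := inv_le_one_of_one_le₀ (by linarith)
  have h3 : 0 < (1 + κ)⁻¹ := inv_pos.2 hp
  have h4 := one_add_mul_le_pow (a := -(κ * (1 + κ)⁻¹)) (by nlinarith) m
  have h5 : 1 + -(κ * (1 + κ)⁻¹) = (1 + κ)⁻¹ := by
    rw [← sub_eq_add_neg, ← h1]
  rw [h5] at h4
  have h6 : κ * (1 + κ)⁻¹ ≤ κ := by nlinarith
  have h7 : (m : ℝ) * (κ * (1 + κ)⁻¹) ≤ m * κ := mul_le_mul_of_nonneg_left h6 (Nat.cast_nonneg m)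
  linarith

/-- elementary bounds for the radial integrals -/
theorem radial_bound (n : ℕ) {κ ψ : ℝ} (h0 : 0 ≤ κ) (h1 : κ ≤ 1) (hψ : |ψ| ≤ (n : ℝ) + 1) :
    ψ * κ - ((n : ℝ) + 2) * ((n : ℝ) + 4) / 2 * κ ^ 2 ≤
      (ψ + 1) * ((1 - (1 + κ)⁻¹ ^ (n + 3)) / ((n : ℝ) + 3)) -
        (1 - (1 + κ)⁻¹ ^ (n + 1)) / ((n : ℝ) + 1) := by
  have hn : (0 : ℝ) ≤ n := Nat.cast_nonneg n
  have a1 := MainG_pow (n + 3) h0
  have a2 := MainG_bern (n + 3) h0
  have a3 := MainG_bern (n + 1) h0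
  push_cast at a1 a2 a3
  obtain ⟨a, ha⟩ : ∃ a : ℝ, a = (1 - (1 + κ)⁻¹ ^ (n + 3)) / ((n : ℝ) + 3) := ⟨_, rfl⟩
  obtain ⟨b, hb⟩ : ∃ b : ℝ, b = (1 - (1 + κ)⁻¹ ^ (n + 1)) / ((n : ℝ) + 1) := ⟨_, rfl⟩
  rw [← ha, ← hb]
  have b1 : κ - ((n : ℝ) + 4) / 2 * κ ^ 2 ≤ a := by
    rw [ha, le_div_iff₀ (by positivity)]
    nlinarith
  have b2 : a ≤ κ := by
    rw [ha, div_le_iff₀ (by positivity)]
    linarith
  have b3 : b ≤ κ := by
    rw [hb, div_le_iff₀ (by positivity)]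
    linarith
  obtain ⟨hψ1, hψ2⟩ := abs_le.1 hψ
  have c0 : 0 ≤ κ - a := by linarith
  have c1 : κ - a ≤ ((n : ℝ) + 4) / 2 * κ ^ 2 := by linarith
  have c2 : ψ * (κ - a) ≤ ((n : ℝ) + 1) * (((n : ℝ) + 4) / 2 * κ ^ 2) := by
    calc ψ * (κ - a) ≤ ((n : ℝ) + 1) * (κ - a) := mul_le_mul_of_nonneg_right hψ2 c0
      _ ≤ _ := mul_le_mul_of_nonneg_left c1 (by positivity)
  have c3 : ((n : ℝ) + 1) * (((n : ℝ) + 4) / 2 * κ ^ 2) + ((n : ℝ) + 4) / 2 * κ ^ 2 =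
      ((n : ℝ) + 2) * ((n : ℝ) + 4) / 2 * κ ^ 2 := by ring
  have c4 : (ψ + 1) * a - b = ψ * κ - ψ * (κ - a) + (a - b) := by ring
  rw [c4]
  linarith

theorem QQ_bounds {y : Fin n → ℝ} (hy : y ∈ stdS n) :
    |((n : ℝ) + 2) * QQ y - 2| ≤ (n : ℝ) + 1 := by
  obtain ⟨hy0, hy1⟩ := hy
  have hle : ∀ i, y i ≤ 1 := fun i =>
    (Finset.single_le_sum (fun j _ => hy0 j) (Finset.mem_univ i)).trans hy1
  have hs0 : 0 ≤ ∑ i, y i := Finset.sum_nonneg fun i _ => hy0 i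
  have h1 : QQ y ≤ 1 := by
    unfold QQ
    have h2 : ∑ i, y i ^ 2 ≤ ∑ i, y i := Finset.sum_le_sum fun i _ => by
      nlinarith [hy0 i, hle i]
    nlinarith
  have h0 : 0 ≤ QQ y := by
    unfold QQ
    have : 0 ≤ ∑ i, y i ^ 2 := Finset.sum_nonneg fun i _ => sq_nonneg _
    positivity
  rcases Nat.eq_zero_or_pos n with hn | hn
  · subst hn
    have h2 : QQ y = 1 := by simp [QQ]
    rw [h2]
    norm_num
  · have hn1 : (1 : ℝ) ≤ n := by exact_mod_cast hn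
    rw [abs_le]
    constructor <;> nlinarith

/-- the gauge of `K - o` on the hyperplane `x 0 = 0` -/
noncomputable def gfun (K : Set (Fin (n + 1) → ℝ)) (y : Fin n → ℝ) : ℝ :=
  gauge {z | z + ctr (n + 1) ∈ K} ((Fin.cons 0 y : Fin (n + 1) → ℝ) - ctr (n + 1))

private theorem MainG_nhds {η : ℝ} (hη : 0 < η) {K : Set (Fin (n + 1) → ℝ)} (h : Near η K) :
    {z : Fin (n + 1) → ℝ | z + ctr (n + 1) ∈ K} ∈ nhds 0 := by
  have hop : IsOpen {x : Fin (n + 1) → ℝ | (∀ i, 0 < x i) ∧ ∑ i, x i < 1} := by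
    have hs : IsOpen {x : Fin (n + 1) → ℝ | ∑ i, x i < 1} :=
      isOpen_lt (by fun_prop) continuous_const
    refine IsOpen.inter ?_ hs
    have : {x : Fin (n + 1) → ℝ | ∀ i, 0 < x i} = ⋂ i, {x : Fin (n + 1) → ℝ | 0 < x i} := by
      ext x
      simp
    change IsOpen {x : Fin (n + 1) → ℝ | ∀ i, 0 < x i}
    rw [this]
    exact isOpen_iInter_of_finite fun i => isOpen_lt continuous_const (by fun_prop)
  have hmem : ctr (n + 1) ∈ {x : Fin (n + 1) → ℝ | (∀ i, 0 < x i) ∧ ∑ i, x i < 1} := by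
    refine ⟨fun i => ?_, ?_⟩
    · unfold ctr
      positivity
    · unfold ctr
      rw [Finset.sum_const, Finset.card_univ, Fintype.card_fin, nsmul_eq_mul]
      push_cast
      rw [mul_one_div, div_lt_one (by positivity)]
      linarith
  have hc : Continuous fun z : Fin (n + 1) → ℝ => ctr (n + 1) + (1 + η) • z := by fun_prop
  have h0 : ctr (n + 1) + (1 + η) • (0 : Fin (n + 1) → ℝ) ∈
      {x : Fin (n + 1) → ℝ | (∀ i, 0 < x i) ∧ ∑ i, x i < 1} := by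
    rw [smul_zero, add_zero]
    exact hmem
  filter_upwards [(hop.preimage hc).mem_nhds h0] with z hz
  obtain ⟨hz1, hz2⟩ := hz
  have h1 := h.inner (ctr (n + 1) + (1 + η) • z) ⟨fun i => (hz1 i).le, hz2.le⟩
  rw [add_sub_cancel_left, inv_smul_smul₀ (by linarith : (1 + η) ≠ 0), add_comm (ctr (n + 1)) z] at h1
  exact h1

theorem gfun_facts {η : ℝ} (hη : 0 < η) {K : Set (Fin (n + 1) → ℝ)} (h : Near η K) :
    ConvexOn ℝ univ (gfun K) ∧ (∀ y, 1 ≤ gfun K y) ∧ gfun K (ctr n) = 1 ∧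
    (∀ y ∈ stdS n, gfun K y ≤ 1 + η) ∧
    (∀ τ : ℝ, 0 ≤ τ → ∀ y, ray τ y ∈ K ↔ τ * gfun K y ≤ 1) := by
  have hnh := MainG_nhds hη h
  have hconv : Convex ℝ {z : Fin (n + 1) → ℝ | z + ctr (n + 1) ∈ K} := by
    intro a ha b hb s t hs ht hst
    have h1 := h.convex ha hb hs ht hst
    have e : s • (a + ctr (n + 1)) + t • (b + ctr (n + 1)) = s • a + t • b + ctr (n + 1) := by
      rw [smul_add, smul_add]
      have : ctr (n + 1) = s • ctr (n + 1) + t • ctr (n + 1) := by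
        rw [← add_smul, hst, one_smul]
      conv_rhs => rw [this]
      abel
    rw [e] at h1
    exact h1
  have habs : Absorbent ℝ {z : Fin (n + 1) → ℝ | z + ctr (n + 1) ∈ K} :=
    absorbent_nhds_zero hnh
  have hclosed : IsClosed {z : Fin (n + 1) → ℝ | z + ctr (n + 1) ∈ K} :=
    h.compact.isClosed.preimage (by fun_prop)
  have hone : ∀ z : Fin (n + 1) → ℝ, gauge {z | z + ctr (n + 1) ∈ K} z ≤ 1 ↔
      z + ctr (n + 1) ∈ K := by
    intro z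
    rw [gauge_le_one_iff_mem_closure hconv hnh, hclosed.closure_eq]
    rfl
  have hge : ∀ y, 1 ≤ gfun K y := by
    intro y
    by_contra hlt
    push Not at hlt
    obtain ⟨r, hr0, hr1, c, hc, hcw⟩ := exists_lt_of_gauge_lt habs hlt
    have hpos : 0 < ctr (n + 1) (0 : Fin (n + 1)) := by
      unfold ctr
      positivity
    have h1 : (0 : ℝ) ≤ (c + ctr (n + 1)) 0 := (h.sub hc).1 0
    have h2 : (r • c) 0 = ((Fin.cons 0 y : Fin (n + 1) → ℝ) - ctr (n + 1)) 0 := by rw [← hcw]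
    rw [Pi.smul_apply, Pi.sub_apply, Fin.cons_zero, smul_eq_mul] at h2
    rw [Pi.add_apply] at h1
    have h3 : 0 ≤ r * (c 0 + ctr (n + 1) 0) := mul_nonneg hr0.le h1
    have h4 : r * ctr (n + 1) (0 : Fin (n + 1)) < 1 * ctr (n + 1) (0 : Fin (n + 1)) :=
      mul_lt_mul_of_pos_right hr1 hpos
    linarith
  refine ⟨⟨convex_univ, ?_⟩, hge, ?_, ?_, ?_⟩
  · intro y1 _ y2 _ a b ha hb hab
    unfold gfun
    have e : (Fin.cons 0 (a • y1 + b • y2) : Fin (n + 1) → ℝ) - ctr (n + 1) =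
        a • ((Fin.cons 0 y1 : Fin (n + 1) → ℝ) - ctr (n + 1)) +
          b • ((Fin.cons 0 y2 : Fin (n + 1) → ℝ) - ctr (n + 1)) := by
      funext i
      have hb' : b = 1 - a := by linarith
      subst hb'
      refine Fin.cases ?_ (fun j => ?_) i
      · simp only [Pi.sub_apply, Pi.add_apply, Pi.smul_apply, Fin.cons_zero, smul_eq_mul]
        ring
      · simp only [Pi.sub_apply, Pi.add_apply, Pi.smul_apply, Fin.cons_succ, smul_eq_mul]
        ring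
    rw [e]
    refine (gauge_add_le hconv habs _ _).trans ?_
    rw [gauge_smul_of_nonneg ha, gauge_smul_of_nonneg hb]
  · refine le_antisymm ?_ (hge _)
    unfold gfun
    rw [hone, sub_add_cancel]
    have h1 := h.facets (some 0)
    have h2 : sig (some 0) (Fin.cons 0 (ctr n) : Fin (n + 1) → ℝ) =
        (Fin.cons 0 (ctr n) : Fin (n + 1) → ℝ) := by
      funext j
      simp [sig]
    rw [h2] at h1
    exact h1
  · intro y hy
    have hp : 0 < 1 + η := by linarith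
    have hmem : (Fin.cons 0 y : Fin (n + 1) → ℝ) ∈ stdS (n + 1) := by
      refine ⟨fun i => ?_, ?_⟩
      · refine Fin.cases ?_ (fun j => ?_) i
        · rw [Fin.cons_zero]
        · rw [Fin.cons_succ]
          exact hy.1 j
      · rw [Fin.sum_univ_succ]
        simp only [Fin.cons_zero, Fin.cons_succ, zero_add]
        exact hy.2
    have h1 := h.inner _ hmem
    rw [add_comm (ctr (n + 1)) _] at h1
    have h2 := (hone _).2 h1
    rw [gauge_smul_of_nonneg (inv_pos.2 hp).le, smul_eq_mul, inv_mul_le_iff₀ hp, mul_one] at h2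
    exact h2
  · intro τ hτ y
    rw [ray_eq, add_comm (ctr (n + 1)) _, ← hone, gauge_smul_of_nonneg hτ, smul_eq_mul]
    rfl

end Vale.Agent.P254U
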